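import Vale.Agent.P237.All.High.Cert

/-!
P237, high regime in dimensions `4..7`: the certificate of `High.Cert` with the exact exponential in
place of its linearisation reaches down to `k = 10, 23/2, 25/2, 27/2`.
-/

noncomputable section

open MeasureTheory Set Real intervalIntegral

namespace Vale.Agent.P237.All.Transport.High

/-- The bound of the certificate with the lower bound `C` for `(J / P) ^ (2 / (p + 2)) - 1`. -/
def highPiAt (p : ℕ) (C : ℝ) (y : ℝ) : ℝ :=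
  semi y ^ (p + 1) * (zeroOrder p (1 / 4) y - 1 / 4 * C) + semi y ^ (p - 1) * errNum p (y ^ 2)

theorem highPiAt_cont (p : ℕ) (C : ℝ) : Continuous (highPiAt p C) := by
  have := semi_continuous
  unfold highPiAt zeroOrder errNum
  fun_prop

theorem c2_ge_exp {p : ℕ} {k C J : ℝ} (hC : C ≤ exp (2 * k / (((p : ℝ) + 1) * ((p : ℝ) + 2))) - 1)
    (hJ : exp (k / ((p : ℝ) + 1)) * (2 * mass (p + 1) semi 1) ≤ J) :
    C ≤ (J / ∫ s in (-1 : ℝ)..1, semi s ^ (p + 1)) ^ (2 / ((p : ℝ) + 2)) - 1 := by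
  have hP := mass_one_pos isProfile_semi (p + 1)
  rw [integral_even isProfile_semi (p + 1)]
  have hx : exp (k / ((p : ℝ) + 1)) ≤ J / (2 * mass (p + 1) semi 1) := by
    rwa [le_div_iff₀ (by positivity)]
  have h2 := Real.rpow_le_rpow (exp_pos _).le hx (show 0 ≤ 2 / ((p : ℝ) + 2) by positivity)
  rw [← Real.exp_mul] at h2
  have e : k / ((p : ℝ) + 1) * (2 / ((p : ℝ) + 2)) = 2 * k / (((p : ℝ) + 1) * ((p : ℝ) + 2)) := by
    field_simp
  rw [e] at h2
  linarith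

theorem highPiAt_neg {q : ℕ} (hq : 1 ≤ q) {C : ℝ}
    (hb : (3 * (pC ((q : ℝ) + 1) + eC ((q : ℝ) + 1) ^ 2 / sC ((q : ℝ) + 1)) ^ 2 /
          (((q : ℝ) + 3) * ((q : ℝ) + 5)) -
        3 * (pC ((q : ℝ) + 1) + eC ((q : ℝ) + 1) ^ 2 / sC ((q : ℝ) + 1)) / ((q : ℝ) + 3) + 9 / 4) /
          (4 * lamC ((q : ℝ) + 1)) + kapC ((q : ℝ) + 1) / ((q : ℝ) + 1) ^ 2 <
      C / 4 * (((q : ℝ) + 2) / ((q : ℝ) + 3))) :
    ∫ y in (0 : ℝ)..1, highPiAt (q + 1) C y < 0 := by
  have hp2 : (2 : ℝ) ≤ (q : ℝ) + 1 := by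
    have : (1 : ℝ) ≤ q := by exact_mod_cast hq
    linarith
  set P := pC ((q : ℝ) + 1) + eC ((q : ℝ) + 1) ^ 2 / sC ((q : ℝ) + 1) with hP
  set L := 4 * lamC ((q : ℝ) + 1) with hL
  have hL0 : 0 < L := by
    have := lamC_pos hp2
    rw [hL]; linarith
  set G := 1 / 4 * C with hG
  have hs := semi_continuous
  have e : highPiAt (q + 1) C = fun y => semi y ^ (q + 1 + 1) * zeroOrder (q + 1) (1 / 4) y -
      G * semi y ^ (q + 2) + P ^ 2 / L * (y ^ 4 * semi y ^ q) -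
      3 * P / L * (y ^ 2 * semi y ^ q) +
      (9 / 4 / L + kapC ((q : ℝ) + 1) / ((q : ℝ) + 1) ^ 2) * semi y ^ q := by
    funext y
    simp only [highPiAt, errNum, hP, hL, hG, Nat.add_sub_cancel]
    push_cast
    ring
  have hi1 : IntervalIntegrable (fun y => semi y ^ (q + 1 + 1) * zeroOrder (q + 1) (1 / 4) y)
      volume 0 1 := (show Continuous _ by unfold zeroOrder; fun_prop).intervalIntegrable _ _
  have hi : ∀ n, IntervalIntegrable (fun y => semi y ^ n) volume 0 1 := fun n =>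
    (show Continuous _ by fun_prop).intervalIntegrable _ _
  have hi' : ∀ j, IntervalIntegrable (fun y => y ^ j * semi y ^ q) volume 0 1 := fun j =>
    (show Continuous _ by fun_prop).intervalIntegrable _ _
  rw [e, intervalIntegral.integral_add (((hi1.sub ((hi _).const_mul _)).add
      ((hi' 4).const_mul _)).sub ((hi' 2).const_mul _)) ((hi q).const_mul _),
    intervalIntegral.integral_sub ((hi1.sub ((hi _).const_mul _)).add ((hi' 4).const_mul _))
      ((hi' 2).const_mul _),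
    intervalIntegral.integral_add (hi1.sub ((hi _).const_mul _)) ((hi' 4).const_mul _),
    intervalIntegral.integral_sub hi1 ((hi _).const_mul _), intervalIntegral.integral_const_mul,
    intervalIntegral.integral_const_mul, intervalIntegral.integral_const_mul,
    intervalIntegral.integral_const_mul, zeroOrder_integral, ← mass_semi, ← mass_semi, moment_two,
    moment_four, mass_semi_step]
  have hM := mass_one_pos isProfile_semi q
  have key := mul_lt_mul_of_pos_right hb hM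
  have e1 : (3 * P ^ 2 / (((q : ℝ) + 3) * ((q : ℝ) + 5)) - 3 * P / ((q : ℝ) + 3) + 9 / 4) / L +
      kapC ((q : ℝ) + 1) / ((q : ℝ) + 1) ^ 2 =
      P ^ 2 / L * (3 / (((q : ℝ) + 3) * ((q : ℝ) + 5))) - 3 * P / L * (1 / ((q : ℝ) + 3)) +
        (9 / 4 / L + kapC ((q : ℝ) + 1) / ((q : ℝ) + 1) ^ 2) := by
    field_simp
    ring
  have e2 : G * (((q : ℝ) + 2) / ((q : ℝ) + 3) * mass q semi 1) =
      C / 4 * (((q : ℝ) + 2) / ((q : ℝ) + 3)) * mass q semi 1 := by
    rw [hG]; ring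
  rw [e1] at key
  have e3 : P ^ 2 / L * (3 * mass q semi 1 / (((q : ℝ) + 3) * ((q : ℝ) + 5))) -
      3 * P / L * (mass q semi 1 / ((q : ℝ) + 3)) +
      (9 / 4 / L + kapC ((q : ℝ) + 1) / ((q : ℝ) + 1) ^ 2) * mass q semi 1 =
    (P ^ 2 / L * (3 / (((q : ℝ) + 3) * ((q : ℝ) + 5))) - 3 * P / L * (1 / ((q : ℝ) + 3)) +
        (9 / 4 / L + kapC ((q : ℝ) + 1) / ((q : ℝ) + 1) ^ 2)) * mass q semi 1 := by ring
  linarith

/-- A certificate at every common integral above `exp (k / m) P_m`. -/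
theorem hasCert_highAt (q : ℕ) (hq : 1 ≤ q) {k C : ℝ}
    (hC : C ≤ exp (2 * k / ((((q + 1 : ℕ) : ℝ) + 1) * (((q + 1 : ℕ) : ℝ) + 2))) - 1) (hC0 : 0 ≤ C)
    (hneg : ∫ y in (0 : ℝ)..1, highPiAt (q + 1) C y < 0) (J : ℝ)
    (hJ : exp (k / (((q + 1 : ℕ) : ℝ) + 1)) * (2 * mass (q + 1 + 1) semi 1) ≤ J) :
    HasCert (q + 1) J := by
  have hp : 2 ≤ q + 1 := by omega
  have hc := c2_ge_exp hC hJ
  refine ⟨0, 1 / 4, 1, le_rfl, by norm_num, zero_le_one, ⟨?_⟩⟩
  exact
  { β := 1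
    ell := ellOf (q + 1) (1 / 4) (3 / 2)
      ((J / ∫ s in (-1 : ℝ)..1, semi s ^ (q + 1 + 1)) ^ (2 / (((q + 1 : ℕ) : ℝ) + 2)))
    ell_nonneg := by
      have hp2 : (2 : ℝ) ≤ ((q + 1 : ℕ) : ℝ) := by exact_mod_cast hp
      have ha := (aC_mem (show (0 : ℝ) ≤ ((q + 1 : ℕ) : ℝ) by linarith)).2
      rw [ellOf, potA_eq]
      nlinarith [mul_le_mul_of_nonneg_left ha (show (0 : ℝ) ≤ ((q + 1 : ℕ) : ℝ) by linarith)]
    V := pot (q + 1) (potA (q + 1) (1 / 4)) (cC (q + 1 : ℕ))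
    Vy := potY (q + 1) (potA (q + 1) (1 / 4)) (cC (q + 1 : ℕ))
    Vt := potT (q + 1) (potA (q + 1) (1 / 4)) (cC (q + 1 : ℕ))
    Pi := highPiAt (q + 1) C
    chain := fun Z Z' t _ hy hZ => pot_chain _ _ Z Z' t hy hZ
    along := fun Z hZ h0 hα h1 => pot_along _ _ Z hZ h0 hα h1
    V_zero := pot_zero _ _
    V_one := pot_one _ _
    Pi_cont := (highPiAt_cont _ C).continuousOn
    Pi_neg := hneg
    point := fun y hy t ht r lam hr _ _ _ hreach _ _ _ => by
      rw [density_inner _ _ lam hy hr]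
      have h := inner_le hp hy ht.2.le hr hreach
      have hS : 0 < 1 - y ^ 2 := by nlinarith [hy.1, hy.2]
      have e : semi y ^ (q + 1 + 1) * (errNum (q + 1 : ℕ) (y ^ 2) / (1 - y ^ 2)) =
          semi y ^ (q + 1 - 1) * errNum (q + 1 : ℕ) (y ^ 2) := by
        rw [show q + 1 + 1 = q + 1 - 1 + 2 by omega, pow_add, semi_sq ⟨by linarith [hy.1], hy.2.le⟩]
        field_simp
      have hs : 0 ≤ semi y ^ (q + 1 + 1) := pow_nonneg (Real.sqrt_nonneg _) _
      have := mul_le_mul_of_nonneg_left h hs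
      have := mul_le_mul_of_nonneg_left hc hs
      rw [highPiAt]
      linarith }

end Vale.Agent.P237.All.Transport.High
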