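import Vale.Agent.P237.All.Upper.Tail

/-!
P237, every dimension, high regime: the bound `w semi y ≤ wide θ x` that `Reach` gives, with the
factor `θ` of the core chosen by the dimension.
-/

noncomputable section

open MeasureTheory Set Filter Real intervalIntegral
open scoped Topology

namespace Vale.Agent.P237.All.Transport.High

open Upper (mills core mills_pos mills_mono core_mem core_mono core_cost tail_ge2 scaled_mass_mem)

/-- The factors allowed in dimension `t = 1 / (p + 2)`. -/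
def ThetaOK (θ t : ℝ) : Prop := θ ≤ 17 / 20 ∨ θ ≤ 1 - 2 * t + 97 / 100 * (t / (1 - t))

/-- The lower bound on the exponential of `θ` times `core`. -/
def lift (θ x : ℝ) : ℝ :=
  1 + θ * core x + (θ * core x) ^ 2 / 2 + (θ * core x) ^ 3 / 6 + (θ * core x) ^ 4 / 24

/-- The bound on `w semi y`. -/
def wide (θ x : ℝ) : ℝ := 20665 / 10000 * mills x / lift θ x

theorem lift_pos {θ x : ℝ} (hθ : 0 ≤ θ) (hx : 0 ≤ x) : 0 < lift θ x := by
  have := (core_mem hx).1
  unfold lift
  positivity

theorem lift_mono {θ x x' : ℝ} (hθ : 0 ≤ θ) (hx : 0 ≤ x) (h : x ≤ x') : lift θ x ≤ lift θ x' := by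
  have := core_mono hx h
  have := (core_mem hx).1
  unfold lift
  gcongr

theorem wide_le {θ lo hi x : ℝ} (hθ : 0 ≤ θ) (hlo : 0 ≤ lo) (h1 : lo ≤ x) (h2 : x ≤ hi) :
    wide θ x ≤ 20665 / 10000 * mills hi / lift θ lo := by
  have h0 := lift_pos hθ hlo
  have hl := lift_mono hθ hlo h1
  have hm := mills_mono (hlo.trans h1) h2
  have := mills_pos (hlo.trans h1)
  have := mills_pos (show 0 ≤ hi by linarith)
  unfold wide
  gcongr

theorem thetaOK_anti {θ t t' : ℝ} (h : ThetaOK θ t') (htt : t ≤ t') (h1 : t' ≤ 1 / 4) :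
    ThetaOK θ t := by
  rcases h with h | h
  · exact Or.inl h
  · refine Or.inr (h.trans ?_)
    have e : t' / (1 - t') - t / (1 - t) = (t' - t) / ((1 - t') * (1 - t)) := by
      rw [div_sub_div _ _ (by linarith) (by linarith)]; ring
    have h2 : (t' - t) / ((1 - t') * (1 - t)) ≤ (t' - t) * (16 / 9) := by
      rw [div_le_iff₀ (mul_pos (by linarith) (by linarith))]
      nlinarith [mul_le_mul_of_nonneg_left (mul_le_mul (show (3 : ℝ) / 4 ≤ 1 - t' by linarith)
        (show (3 : ℝ) / 4 ≤ 1 - t by linarith) (by norm_num) (by linarith)) (sub_nonneg.2 htt)]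
    linarith

theorem exponent_le {p θ C z L : ℝ} (hp : 2 ≤ p) (hθ : ThetaOK θ (1 / (p + 2)))
    (hz : z ∈ Icc (0 : ℝ) 1) (hL : 0 ≤ L) (hC : 1 / 2 + 18 / 25 * z ≤ C) :
    p / (p + 1) * (C + 1 / (4 * (p + 1)) + L) - p / (p + 2) * z ≤ C + L - θ * z := by
  have h1 : p / (p + 1) * L ≤ L :=
    mul_le_of_le_one_left hL ((div_le_one (by linarith)).2 (by linarith))
  suffices h : p / (p + 1) / (4 * (p + 1)) + (θ - p / (p + 2)) * z ≤ 1 / (p + 1) * C by
    have e : p / (p + 1) * (C + 1 / (4 * (p + 1)) + L) =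
        C - 1 / (p + 1) * C + p / (p + 1) / (4 * (p + 1)) + p / (p + 1) * L := by
      field_simp; ring
    linarith
  refine le_trans ?_ (mul_le_mul_of_nonneg_left hC (by positivity))
  have a : p / (p + 1) / (4 * (p + 1)) ≤ 1 / (p + 1) * (1 / 2) := by
    field_simp
    nlinarith
  have b : p / (p + 1) / (4 * (p + 1)) + (θ - p / (p + 2)) ≤ 1 / (p + 1) * (1 / 2 + 18 / 25) := by
    rcases hθ with h | h
    · refine le_trans (add_le_add le_rfl (sub_le_sub_right h _)) ?_
      field_simp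
      nlinarith [mul_nonneg (sub_nonneg.2 hp) (sq_nonneg (p - 2)), sq_nonneg (p - 2 - 1 / 94)]
    · have e : 1 - 2 * (1 / (p + 2)) + 97 / 100 * (1 / (p + 2) / (1 - 1 / (p + 2))) =
          p / (p + 2) + 97 / 100 / (p + 1) := by
        have : p + 1 ≠ 0 := by linarith
        have : p + 2 ≠ 0 := by linarith
        rw [show 1 - 1 / (p + 2) = (p + 1) / (p + 2) by field_simp; ring]
        field_simp; ring
      rw [e] at h
      have h2 : p / (p + 1) / (4 * (p + 1)) ≤ 1 / 4 / (p + 1) := by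
        rw [div_div, div_le_div_iff₀ (by positivity) (by linarith)]; nlinarith
      have : 97 / 100 / (p + 1) + 1 / 4 / (p + 1) = 1 / (p + 1) * (1 / 2 + 18 / 25) := by ring
      linarith
  nlinarith [mul_le_mul_of_nonneg_left b hz.1, mul_le_mul_of_nonneg_left a (sub_nonneg.2 hz.2)]

/-- `Reach` bounds `w semi y`. -/
theorem reach_wide {p : ℕ} (hp : 2 ≤ p) {θ y r : ℝ} (hy : y ∈ Ioo (0 : ℝ) 1) (hr : 0 < r)
    (h : Reach p y r) (hθ0 : 0 ≤ θ) (hθ : ThetaOK θ (1 / ((p : ℝ) + 2))) :
    (r ^ p)⁻¹ * semi y ≤ wide θ (√((p : ℝ) + 2) * y) := by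
  have hs := semi_pos (t := y) ⟨by linarith [hy.1], hy.2⟩
  have hp2 : (2 : ℝ) ≤ p := by exact_mod_cast hp
  set x := √((p : ℝ) + 2) * y with hx
  have hx0 : 0 ≤ x := by have := hy.1; positivity
  obtain ⟨hPlo, hPhi⟩ := scaled_mass_mem p
  set Q := mass p semi 1 * √((p : ℝ) + 2) with hQ
  have hQ0 : 0 < Q := lt_of_lt_of_le (by norm_num) hPlo
  have hD := mills_pos hx0
  set v₀ := semi y ^ (p + 2) / (Q * mills x) with hv₀
  have hv : v₀ ≤ 1 - core x := by
    have hq : semi y ^ (p + 2) * (1 + x ^ 2 / 2 + x ^ 4 / 8) ≤ 1 := by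
      have he := Real.quadratic_le_exp_of_nonneg (show (0 : ℝ) ≤ x ^ 2 / 2 by positivity)
      have hsq : (semi y ^ (p + 2)) ^ 2 ≤ exp (-(x ^ 2 / 2)) ^ 2 := by
        rw [← pow_mul, mul_comm, pow_mul, semi_sq ⟨by linarith [hy.1], hy.2.le⟩]
        refine (pow_le_pow_left₀ (by nlinarith [hy.1, hy.2]) (Real.one_sub_le_exp_neg (y ^ 2)) _).trans
          (le_of_eq ?_)
        rw [← Real.exp_nat_mul, ← Real.exp_nat_mul, hx, mul_pow, sq_sqrt (by positivity)]
        congr 1; push_cast; ring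
      have h' := (pow_le_pow_iff_left₀ (pow_nonneg hs.le _) (exp_pos _).le two_ne_zero).1 hsq
      refine (mul_le_mul h' (le_trans (le_of_eq (by ring)) he) (by positivity) (exp_pos _).le).trans ?_
      rw [← Real.exp_add, neg_add_cancel, Real.exp_zero]
    rw [core, sub_sub_cancel, hv₀, div_le_div_iff₀ (by positivity) (by positivity)]
    calc semi y ^ (p + 2) * ((1 + x ^ 2 / 2 + x ^ 4 / 8) * (12533 / 10000) * mills x)
        = semi y ^ (p + 2) * (1 + x ^ 2 / 2 + x ^ 4 / 8) * (12533 / 10000 * mills x) := by ring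
      _ ≤ 1 * (Q * mills x) := by gcongr
  have hl := reach_log_le' p hy hr h (div_pos (pow_pos hs _) (by positivity))
    (tail_ge2 p (Ioo_subset_Icc_self hy))
  rw [← hx, ← hQ, ← hv₀] at hl
  have hls : log v₀ = ((p : ℝ) + 2) * log (semi y) - (log Q + log (mills x)) := by
    rw [hv₀, Real.log_div (pow_pos hs _).ne' (by positivity), Real.log_pow,
      Real.log_mul hQ0.ne' hD.ne']
    push_cast; ring
  have hLs : 0 ≤ -log (semi y) := by
    rw [neg_nonneg]
    exact Real.log_nonpos hs.le (Real.sqrt_le_one.2 (by nlinarith [sq_nonneg y]))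
  have hexp := exponent_le hp2 hθ (core_mem hx0) hLs (core_cost hx0)
  have hl' : -((p : ℝ) * log r) ≤
      1 / 2 + log (125332 / 100000) + log (mills x) + -log (semi y) - θ * core x := by
    refine hl.trans (le_trans ?_ hexp)
    rw [hls]
    have hA : (0 : ℝ) < (p : ℝ) + 2 := by linarith
    have hm : (0 : ℝ) < (p : ℝ) + 1 := by linarith
    have h3 := mul_le_mul_of_nonneg_left hPhi (div_nonneg (show (0 : ℝ) ≤ p by linarith) hm.le)
    have h4 := mul_le_mul_of_nonneg_left (show core x ≤ 1 - v₀ by linarith)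
      (div_nonneg (show (0 : ℝ) ≤ p by linarith) hA.le)
    have e : (p : ℝ) * (log (semi y) + 1 / (2 * ((p : ℝ) + 1)) -
        (((p : ℝ) + 2) * log (semi y) - (log Q + log (mills x))) / ((p : ℝ) + 1) -
        (1 - v₀) / ((p : ℝ) + 2)) = (p : ℝ) / ((p : ℝ) + 1) *
        (1 / 2 + log (mills x) + -log (semi y)) + (p : ℝ) / ((p : ℝ) + 1) * log Q -
        (p : ℝ) / ((p : ℝ) + 2) * (1 - v₀) := by
      field_simp; ring
    linarith
  have h5 := exp_le_exp.2 (add_le_add_right hl' (log (semi y)))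
  rw [← Real.log_pow, ← Real.log_inv, Real.exp_add (log (semi y)) (log (r ^ p)⁻¹),
    Real.exp_log hs, Real.exp_log (inv_pos.2 (pow_pos hr p)), mul_comm, add_comm (log (semi y))] at h5
  refine h5.trans ?_
  have hc := (core_mem hx0).1
  have e1 : exp (1 / 2 + log (125332 / 100000) + log (mills x) + -log (semi y) - θ * core x +
      log (semi y)) = exp (1 / 2) * (125332 / 100000) * mills x / exp (θ * core x) := by
    rw [show (1 / 2 : ℝ) + log (125332 / 100000) + log (mills x) + -log (semi y) - θ * core x +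
      log (semi y) = 1 / 2 + log (125332 / 100000) + log (mills x) - θ * core x by ring,
      Real.exp_sub, Real.exp_add, Real.exp_add, Real.exp_log (by norm_num), Real.exp_log hD]
  rw [e1, wide]
  have hh : exp (1 / 2 : ℝ) ≤ 16488 / 10000 := by
    refine (pow_le_pow_iff_left₀ (exp_pos _).le (by norm_num) two_ne_zero).1 ?_
    rw [← Real.exp_nat_mul, show ((2 : ℕ) : ℝ) * (1 / 2) = 1 by norm_num]
    linarith [Real.exp_one_lt_d9]
  have hlift : lift θ x ≤ exp (θ * core x) :=
    le_trans (le_of_eq (by simp [lift, Finset.sum_range_succ, Nat.factorial]))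
      (Real.sum_le_exp_of_nonneg (mul_nonneg hθ0 hc) 5)
  have := lift_pos hθ0 hx0
  gcongr
  linarith

end Vale.Agent.P237.All.Transport.High
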