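import Vale.Agent.P237.All.High.Core
import Vale.Agent.P237.All.High.Tail

/-!
P237, every dimension, high regime: the inequalities of a box in `(x, t)`, `x = y √(p + 2)`,
`t = 1 / (p + 2)`, split in `w = r⁻ᵖ`, bound the inner function on the box.
-/

noncomputable section

namespace Vale.Agent.P237.All.Transport.High

open Upper (mills mills_pos mills_mono)

/-- `cC` in `t`. -/
def cT (t : ℝ) : ℝ := 11 / 8 - t - 5 * t ^ 2

/-- `aC` in `t`. -/
def aT (t : ℝ) : ℝ := (3 / 2 - t) / (1 + t)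

/-- `eC t` in `t`. -/
def eT (t : ℝ) : ℝ := 3 / 4 - t / 2

/-- `pC t` in `t`. -/
def pT (t : ℝ) : ℝ := 21 / 4 - 11 / 2 * t - (1 - 2 * t) * aT t

/-- `sC t` in `t`. -/
def sT (t : ℝ) : ℝ := 11 / 4 - 13 / 2 * t

/-- `(bC - cC) t` in `t`. -/
def betaT (t : ℝ) : ℝ :=
  cT t - 5 / 4 * (1 + 2 * t) / (1 - t) * (1 - 3 * t + 5 / 16 * (1 + 2 * t) / (1 - t) * t)

/-- `1 / p` in `t`. -/
def ipT (t : ℝ) : ℝ := t / (1 - 2 * t)

/-- The lower bound on the factor of `s ^ 2 / w` in the deficit. -/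
def kT (t0 t1 w : ℝ) : ℝ := (aT t1 * w + 4) / (1 + w) + aT t1 * ipT t0 / w

/-- The upper bound on the slope at `r ≥ 1`. -/
def qHi (t0 t1 : ℝ) : ℝ := pT t0 + eT t0 ^ 2 / sT t1

/-- The lower bound on the slope at `r ≥ 1`. -/
def qLo (t0 t1 : ℝ) : ℝ := pT t1 + eT t1 ^ 2 / sT t0

/-- `lamC / p ^ 2` in `t`. -/
def lamT (t : ℝ) : ℝ := 2 + 2 * ipT t - cT t + aT t / 2

/-- The bound on the inner function, times `1 - y ^ 2`. -/
def errNum (p : ℕ) (u : ℝ) : ℝ :=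
  ((pC p + eC p ^ 2 / sC p) * u - 3 / 2) ^ 2 / (4 * lamC p) + kapC p / (p : ℝ) ^ 2

theorem t_mem {p : ℕ} (hp : 2 ≤ p) :
    0 < 1 / ((p : ℝ) + 2) ∧ 1 / ((p : ℝ) + 2) ≤ 1 / 4 := by
  have hp2 : (2 : ℝ) ≤ p := by exact_mod_cast hp
  exact ⟨by positivity, one_div_le_one_div_of_le (by norm_num) (by linarith)⟩

theorem errNum_nonneg {p : ℕ} (hp : 2 ≤ p) (u : ℝ) : 0 ≤ errNum p u := by
  have := lamC_pos (show (2 : ℝ) ≤ p by exact_mod_cast hp)
  have : 0 ≤ kapC p := by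
    rw [kapC, sub_nonneg, div_le_iff₀ (by positivity)]
    linarith [(show (2 : ℝ) ≤ p by exact_mod_cast hp)]
  unfold errNum
  positivity

theorem coeff_t {p : ℕ} (hp : 2 ≤ p) :
    cC p = cT (1 / ((p : ℝ) + 2)) ∧ aC p = aT (1 / ((p : ℝ) + 2)) ∧
      eC p * (1 / ((p : ℝ) + 2)) = eT (1 / ((p : ℝ) + 2)) ∧
      pC p * (1 / ((p : ℝ) + 2)) = pT (1 / ((p : ℝ) + 2)) ∧
      sC p * (1 / ((p : ℝ) + 2)) = sT (1 / ((p : ℝ) + 2)) ∧
      (bC p - cC p) * (1 / ((p : ℝ) + 2)) = betaT (1 / ((p : ℝ) + 2)) ∧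
      1 / (p : ℝ) = ipT (1 / ((p : ℝ) + 2)) := by
  have hp2 : (2 : ℝ) ≤ p := by exact_mod_cast hp
  set q := (p : ℝ) + 2 with hq
  have hq0 : q ≠ 0 := by positivity
  have ep : (p : ℝ) = q - 2 := by rw [hq]; ring
  have h1 : 1 - 1 / q = ((p : ℝ) + 1) / q := by rw [hq]; field_simp; ring
  have h2 : 1 - 2 * (1 / q) = (p : ℝ) / q := by rw [hq]; field_simp; ring
  refine ⟨?_, ?_, ?_, ?_, ?_, ?_, ?_⟩
  · simp only [cC, cT, hq]; field_simp
  · simp only [aC, aT, eC, hq]; field_simp; ring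
  · simp only [eC, eT, hq]; field_simp; ring
  · simp only [pC, pT, aC, aT, eC, hq]; field_simp; ring
  · simp only [sC, sT, hq]; field_simp; ring
  · simp only [bC, betaT, cC, cT, h1]
    rw [hq]
    have : (p : ℝ) + 1 ≠ 0 := by positivity
    field_simp
    ring
  · rw [ipT, h2]
    have : (p : ℝ) ≠ 0 := by linarith
    field_simp

theorem betaT_anti {t t1 : ℝ} (h0 : 0 ≤ t) (ht : t ≤ t1) (h1 : t1 ≤ 1 / 4) :
    betaT t1 ≤ betaT t := by
  have a : 0 < 1 - t := by linarith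
  have b : 0 < 1 - t1 := by linarith
  have e : betaT t - betaT t1 = (t1 - t) * ((1 + 5 * (t + t1)) * ((1 - t) * (1 - t1)) ^ 2 -
      15 / 2 * (t + t1 - t * t1) * ((1 - t) * (1 - t1)) +
      25 / 64 * (1 + 4 * t + 4 * t1 + 4 * (t ^ 2 + t1 ^ 2) - 5 * (t * t1) - 8 * (t * t1) * (t + t1) +
        4 * (t * t1) ^ 2)) / ((1 - t) * (1 - t1)) ^ 2 := by
    simp only [betaT, cT]
    field_simp
    ring
  have : 0 ≤ betaT t - betaT t1 := by
    rw [e]
    refine div_nonneg (mul_nonneg (by linarith) ?_) (sq_nonneg _)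
    obtain ⟨u, hu, rfl⟩ : ∃ u, 0 ≤ u ∧ t = 1 / 4 - u := ⟨1 / 4 - t, by linarith, by ring⟩
    obtain ⟨v, hv, rfl⟩ : ∃ v, 0 ≤ v ∧ t1 = 1 / 4 - v := ⟨1 / 4 - t1, by linarith, by ring⟩
    have huv := mul_nonneg hu hv
    have hu' : 0 ≤ 1 / 4 - u := h0
    have hv' : 0 ≤ 1 / 4 - v := h0.trans ht
    nlinarith only [hu, hv, huv, mul_nonneg (sq_nonneg u) hu', mul_nonneg (sq_nonneg v) hv',
      mul_nonneg (mul_nonneg huv hu) hu', mul_nonneg (mul_nonneg huv hv) hv', mul_nonneg huv hu',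
      mul_nonneg huv hv', mul_nonneg (mul_nonneg huv huv) hu', mul_nonneg (mul_nonneg huv huv) hv',
      mul_nonneg huv hu, mul_nonneg huv hv, sq_nonneg u, sq_nonneg v,
      mul_nonneg (mul_nonneg huv huv) (add_nonneg hu' hv')]
  linarith

theorem pT_anti {t t1 : ℝ} (h0 : 0 ≤ t) (ht : t ≤ t1) : pT t1 ≤ pT t := by
  have a : 0 < 1 + t := by linarith
  have b : 0 < 1 + t1 := by linarith
  have e : pT t - pT t1 = (t1 - t) * (11 / 2 * ((1 + t) * (1 + t1)) -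
      (11 / 2 - 2 * (t + t1) - 2 * t * t1)) / ((1 + t) * (1 + t1)) := by
    simp only [pT, aT]; field_simp; ring
  have : 0 ≤ pT t - pT t1 := by
    rw [e]
    exact div_nonneg (mul_nonneg (by linarith) (by nlinarith)) (by positivity)
  linarith

theorem cT_anti {t t1 : ℝ} (h0 : 0 ≤ t) (ht : t ≤ t1) : cT t1 ≤ cT t := by
  simp only [cT]; nlinarith [mul_nonneg (sub_nonneg.2 ht) (show 0 ≤ t + t1 by linarith)]

theorem aT_anti {t t1 : ℝ} (h0 : 0 ≤ t) (ht : t ≤ t1) : aT t1 ≤ aT t := by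
  rw [aT, aT, div_le_div_iff₀ (by linarith) (by linarith)]; nlinarith

theorem ipT_mono {t t1 : ℝ} (ht : t ≤ t1) (h1 : t1 ≤ 1 / 4) : ipT t ≤ ipT t1 := by
  rw [ipT, ipT, div_le_div_iff₀ (by linarith) (by linarith)]; nlinarith

theorem ipT_nonneg {t : ℝ} (h0 : 0 ≤ t) (h1 : t ≤ 1 / 4) : 0 ≤ ipT t :=
  div_nonneg h0 (by linarith)

theorem eT_nonneg {t : ℝ} (h1 : t ≤ 1 / 4) : 0 ≤ eT t := by rw [eT]; linarith

theorem aT_nonneg {t : ℝ} (h0 : 0 ≤ t) (h1 : t ≤ 1 / 4) : 0 ≤ aT t :=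
  div_nonneg (by linarith) (by linarith)

theorem pT_nonneg {t : ℝ} (h0 : 0 ≤ t) (h1 : t ≤ 1 / 4) : 0 ≤ pT t := by
  have : aT t ≤ 3 / 2 := by rw [aT, div_le_iff₀ (by linarith)]; linarith
  rw [pT]
  nlinarith

/-- The square of `(w - 1) / √w` grows with `w`. -/
theorem qsq_mono {w w' : ℝ} (hw : 1 ≤ w) (h : w ≤ w') :
    (w - 1) ^ 2 * w' ≤ (w' - 1) ^ 2 * w := by
  nlinarith [mul_nonneg (sub_nonneg.2 h) (show (0 : ℝ) ≤ w * w' - 1 by nlinarith)]

theorem lamT_mono {t t1 : ℝ} (h0 : 0 ≤ t) (ht : t ≤ t1) (h1 : t1 ≤ 1 / 4) :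
    lamT t ≤ lamT t1 := by
  have hc : t1 - t ≤ cT t - cT t1 := by
    simp only [cT]; nlinarith [mul_nonneg (sub_nonneg.2 ht) (show 0 ≤ t + t1 by linarith)]
  have hi : t1 - t ≤ ipT t1 - ipT t := by
    have e : ipT t1 - ipT t = (t1 - t) / ((1 - 2 * t1) * (1 - 2 * t)) := by
      rw [ipT, ipT, div_sub_div _ _ (by linarith) (by linarith)]; ring
    rw [e, le_div_iff₀ (mul_pos (by linarith) (by linarith))]
    exact mul_le_of_le_one_right (by linarith) (by nlinarith)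
  have ha : aT t - aT t1 ≤ 5 / 2 * (t1 - t) := by
    have e : aT t - aT t1 = 5 / 2 * (t1 - t) / ((1 + t) * (1 + t1)) := by
      have : 1 + t ≠ 0 := by linarith
      have : 1 + t1 ≠ 0 := by linarith
      simp only [aT]; field_simp; ring
    rw [e]
    exact div_le_self (by linarith) (by nlinarith)
  rw [lamT, lamT]
  linarith

theorem qsq_eq {w : ℝ} (hw : 1 ≤ w) : ((w - 1) / √w) ^ 2 = (w - 1) ^ 2 / w := by
  rw [div_pow, Real.sq_sqrt (by linarith)]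

/-- The bound on `w` on a box. -/
structure Cap (θ lo hi t0 t1 ub Wc W : ℝ) : Prop where
  hθ0 : 0 ≤ θ
  hθ : ThetaOK θ t1
  hlo : 0 ≤ lo
  ht0 : 0 ≤ t0
  ht1 : t1 ≤ 1 / 4
  hub : hi ^ 2 * t1 ≤ ub ∨ 9 / 20 ≤ ub
  hub1 : ub < 1
  hW0 : 0 ≤ W
  hwide : 20665 / 10000 * mills hi ≤ Wc * lift θ lo
  hW : Wc ^ 2 ≤ W ^ 2 * (1 - ub)

/-- The inequality of a part `[w0, w1]` of the range of `w` on a box. -/
structure Phase (lo hi t0 t1 ub Wc w0 w1 sw q0 q1 z0 z1 T T2 D E N f : ℝ) : Prop where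
  hw0 : 1 ≤ w0
  hT0 : 0 < T
  hT : T ≤ cT t1 + min (lo ^ 2 * betaT t1) (hi ^ 2 * betaT t1)
  hK : 0 ≤ cT t1 + 2 * min (lo ^ 2 * betaT t1) (hi ^ 2 * betaT t1)
  hT2' : 0 < T2
  hT2 : T2 ≤ cT t0 + min (lo ^ 2 * betaT t1) (hi ^ 2 * betaT t1)
  hsw0 : 0 ≤ sw
  hsw : (1 - lo ^ 2 * t0) * w1 ≤ sw ∨ (1 - lo ^ 2 * t0) * Wc ^ 2 ≤ sw ^ 2
  hq1 : (w1 - 1) ^ 2 ≤ q1 ^ 2 * w1
  hq10 : 0 ≤ q1
  hN0 : 0 ≤ N
  hN : 3 / 2 - pT t1 * lo ^ 2 + (2 * cT t0 * ((1 - lo ^ 2 * t0) * (w1 - 1)) * eT t0 * hi ^ 2 +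
    eT t0 ^ 2 * (hi ^ 2) ^ 2 * (q1 * ipT t1)) / T ≤ N
  hf : f ≤ kT t0 t1 w1 - cT t0 ^ 2 * sw / T2
  hD0 : 0 ≤ D
  hD : D = 0 ∨ D ≤ 3 / 2 - qHi t0 t1 * hi ^ 2 ∨ D ≤ qLo t0 t1 * lo ^ 2 - 3 / 2
  hE0 : 0 ≤ E
  hE : E ≤ 31 / 20 - 24 / 5 * t1 + D ^ 2 / (4 * lamT t1)
  hopt : (0 ≤ f ∧ N ^ 2 ≤ 4 * f * E) ∨
    (0 ≤ f ∧ N ≤ 2 * f * z0 ∧ z0 * (N - f * z0) ≤ E ∧ 0 ≤ z0 ∧ z0 * ipT t1 ≤ (1 - ub) * q0 ∧ q0 ^ 2 * w0 ≤ (w0 - 1) ^ 2) ∨
    ((1 - lo ^ 2 * t0) * q1 ≤ z1 * ipT t0 ∧ 0 ≤ z1 ∧ 2 * f * z1 ≤ N ∧ z1 * (N - f * z1) ≤ E)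

/-- What a part of a box gives. -/
def Piece (lo hi t0 t1 ub Wc w0 w1 : ℝ) : Prop :=
  ∀ (p : ℕ) (y r θ : ℝ), 2 ≤ p → y ∈ Set.Ioo (0 : ℝ) 1 → 0 < r → r ≤ 1 →
    lo ≤ √((p : ℝ) + 2) * y → √((p : ℝ) + 2) * y ≤ hi →
    t0 ≤ 1 / ((p : ℝ) + 2) → 1 / ((p : ℝ) + 2) ≤ t1 → 0 ≤ lo → 0 ≤ t0 → t1 ≤ 1 / 4 →
    y ^ 2 ≤ ub → ub < 1 → (r ^ p)⁻¹ * semi y ≤ Wc → w0 ≤ (r ^ p)⁻¹ → (r ^ p)⁻¹ ≤ w1 →
    inner p y r θ ≤ errNum p (y ^ 2) / (1 - y ^ 2)

theorem Phase.sound {lo hi t0 t1 ub Wc w0 w1 sw q0 q1 z0 z1 T T2 D E N f : ℝ}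
    (B : Phase lo hi t0 t1 ub Wc w0 w1 sw q0 q1 z0 z1 T T2 D E N f) :
    Piece lo hi t0 t1 ub Wc w0 w1 := by
  intro p y r θ hp hy hr hr1 hx0 hx1 ht0 ht1 hlo h00 h14 hub hub1 hWc hw0 hw1
  obtain ⟨h1w0, hT0, hT, hK, hT2', hT2, hsw0, hsw, hq1, hq10, hN0, hN, hf, hD0, hD, hE0, hE, hopt⟩ := B
  have hp2 : (2 : ℝ) ≤ p := by exact_mod_cast hp
  obtain ⟨htpos, -⟩ := t_mem hp
  obtain ⟨ec, ea, ee, ep, es, eb, ei⟩ := coeff_t hp
  set t := 1 / ((p : ℝ) + 2) with ht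
  set x := √((p : ℝ) + 2) * y with hx
  set w := (r ^ p)⁻¹ with hw
  have hy0 := hy.1
  have hx00 : 0 ≤ x := by positivity
  have hu : y ^ 2 = x ^ 2 * t := by
    rw [hx, mul_pow, Real.sq_sqrt (by positivity), ht]; field_simp
  have hxl : lo ^ 2 ≤ x ^ 2 := pow_le_pow_left₀ hlo hx0 2
  have hxh : x ^ 2 ≤ hi ^ 2 := pow_le_pow_left₀ hx00 hx1 2
  have hS : 0 < 1 - y ^ 2 := by linarith only [hub, hub1]
  have hSu : 1 - y ^ 2 ≤ 1 - lo ^ 2 * t0 := by
    rw [hu]; linarith only [mul_le_mul hxl ht0 h00 (sq_nonneg x)]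
  have hw1' : 1 ≤ w := h1w0.trans hw0
  have hw1'' : 1 ≤ w1 := hw1'.trans hw1
  have hS0 : 0 ≤ 1 - lo ^ 2 * t0 := hS.le.trans hSu
  have hct : cC p ≤ cT t0 ∧ cT t1 ≤ cC p := by
    rw [ec]
    exact ⟨cT_anti h00 ht0, cT_anti htpos.le ht1⟩
  obtain ⟨hc0, -⟩ := cC_mem hp2
  have hc00 : (0 : ℝ) ≤ cC p := by linarith only [hc0]
  set K0 := min (lo ^ 2 * betaT t1) (hi ^ 2 * betaT t1) with hK0
  set T' := cC p * (1 - y ^ 2) + bC p * y ^ 2 with hT'def
  obtain ⟨hT', hT''⟩ : T ≤ T' ∧ cC p + K0 ≤ T' := by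
    have e : T' = cC p + x ^ 2 * betaT t := by rw [hT'def, ← eb, hu]; ring
    have hb := mul_le_mul_of_nonneg_left (betaT_anti htpos.le ht1 h14) (sq_nonneg x)
    have hk : K0 ≤ x ^ 2 * betaT t1 := by
      rcases le_total 0 (betaT t1) with h | h
      · exact (min_le_left _ _).trans (mul_le_mul_of_nonneg_right hxl h)
      · exact (min_le_right _ _).trans (mul_le_mul_of_nonpos_right hxh h)
    constructor <;> linarith only [e, hb, hk, hT, hct.2]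
  have hT'0 : 0 < T' := hT0.trans_le hT'
  set q := (w - 1) / √w with hq
  have hq0' : 0 ≤ q := div_nonneg (by linarith only [hw1']) (Real.sqrt_nonneg _)
  have hqle : q ≤ q1 := by
    refine (pow_le_pow_iff_left₀ hq0' hq10 two_ne_zero).1 ?_
    rw [qsq_eq hw1', div_le_iff₀ (by linarith only [hw1'])]
    refine le_of_mul_le_mul_right ?_ (show (0 : ℝ) < w1 by linarith only [hw1''])
    linarith only [qsq_mono hw1' hw1, mul_le_mul_of_nonneg_left hq1 (show 0 ≤ w by linarith only [hw1'])]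
  have hip := ipT_mono (t := t) ht1 h14
  have hip0 := ipT_mono (t := t0) ht0 (ht1.trans h14)
  have hdr : 1 - r ≤ q1 * ipT t1 := by
    have h : (p : ℝ) * (1 - r) ≤ q := by
      rw [hq, le_div_iff₀ (Real.sqrt_pos.2 (by linarith only [hw1']))]
      exact Upper.drop_le p hr hr1
    calc 1 - r = (p : ℝ) * (1 - r) * (1 / (p : ℝ)) := by field_simp
      _ ≤ q1 * ipT t1 := mul_le_mul (h.trans hqle) (ei.le.trans hip) (by positivity) hq10
  have het : eT t ≤ eT t0 := by rw [eT, eT]; linarith only [ht0]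
  have het0 : 0 ≤ eT t := eT_nonneg (ht1.trans h14)
  have he : eC p * y ^ 2 ≤ eT t0 * hi ^ 2 := by
    rw [show eC p * y ^ 2 = eC p * t * x ^ 2 by rw [hu]; ring, ee]
    exact mul_le_mul het hxh (sq_nonneg _) (het0.trans het)
  have he0 : 0 ≤ eC p * y ^ 2 := by
    have : 0 ≤ eC p := by unfold eC; positivity
    positivity
  have hN' : 3 / 2 - pC p * y ^ 2 + (2 * cC p * (1 - y ^ 2) * (w - 1) * eC p * y ^ 2 +
      eC p ^ 2 * (y ^ 2) ^ 2 * (1 - r)) / T' ≤ N := by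
    refine le_trans (add_le_add ?_ ?_) hN
    · have h := mul_le_mul (pT_anti htpos.le ht1) hxl (sq_nonneg lo)
        (pT_nonneg htpos.le (ht1.trans h14))
      rw [show pC p * y ^ 2 = pC p * t * x ^ 2 by rw [hu]; ring, ep]
      linarith only [h]
    · refine (div_le_div_of_nonneg_left ?_ hT0 hT').trans
        (div_le_div_of_nonneg_right (add_le_add ?_ ?_) hT0.le)
      · have h1 : 0 ≤ 2 * cC p * ((1 - y ^ 2) * (w - 1)) * (eC p * y ^ 2) :=
          mul_nonneg (mul_nonneg (by linarith only [hc00]) (mul_nonneg hS.le (by linarith only [hw1']))) he0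
        have h2 : 0 ≤ eC p ^ 2 * (y ^ 2) ^ 2 * (1 - r) :=
          mul_nonneg (by positivity) (by linarith only [hr1])
        linarith only [h1, h2]
      · calc 2 * cC p * (1 - y ^ 2) * (w - 1) * eC p * y ^ 2
            = 2 * cC p * ((1 - y ^ 2) * (w - 1)) * (eC p * y ^ 2) := by ring
          _ ≤ 2 * cT t0 * ((1 - lo ^ 2 * t0) * (w1 - 1)) * (eT t0 * hi ^ 2) := by
              refine mul_le_mul (mul_le_mul (by linarith only [hct.1]) ?_
                (mul_nonneg hS.le (by linarith only [hw1'])) (by linarith only [hct.1, hc00])) he he0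
                (mul_nonneg (by linarith only [hct.1, hc00]) (mul_nonneg hS0 (by linarith only [hw1''])))
              exact mul_le_mul hSu (by linarith only [hw1]) (by linarith only [hw1']) hS0
          _ = _ := by ring
      · calc eC p ^ 2 * (y ^ 2) ^ 2 * (1 - r) = (eC p * y ^ 2) ^ 2 * (1 - r) := by ring
          _ ≤ (eT t0 * hi ^ 2) ^ 2 * (q1 * ipT t1) :=
              mul_le_mul (pow_le_pow_left₀ he0 he 2) hdr (by linarith only [hr1]) (sq_nonneg _)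
          _ = _ := by ring
  have hf' : f ≤ (aC p * w + 4) / (1 + w) + aC p / (p * w) -
      cC p ^ 2 * ((1 - y ^ 2) * w) / T' := by
    refine hf.trans (sub_le_sub (add_le_add ?_ ?_) ?_)
    · have ha : aT t1 ≤ aC p := ea ▸ aT_anti htpos.le ht1
      have ha4 : aT t1 ≤ 4 := ha.trans (by linarith only [(aC_mem (show (0 : ℝ) ≤ p by linarith)).2])
      rw [div_le_div_iff₀ (by linarith only [hw1'']) (by linarith only [hw1'])]
      linear_combination mul_le_mul_of_nonneg_left hw1 (show 0 ≤ 4 - aT t1 by linarith only [ha4]) +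
        mul_le_mul_of_nonneg_right ha
          (mul_nonneg (show 0 ≤ w by linarith only [hw1']) (show 0 ≤ 1 + w1 by linarith only [hw1'']))
    · rw [show aC p / (p * w) = aC p * (1 / (p : ℝ)) / w by field_simp]
      have h01 : 0 ≤ t1 := htpos.le.trans ht1
      have ha0 := aT_nonneg h01 h14
      have ha : aT t1 ≤ aC p := ea ▸ aT_anti htpos.le ht1
      exact div_le_div₀ (mul_nonneg (ha0.trans ha) (by positivity))
        (mul_le_mul ha (hip0.trans ei.ge) (ipT_nonneg h00 ((ht0.trans ht1).trans h14)) (ha0.trans ha))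
        (by linarith only [hw1']) hw1
    · have hsw' : (1 - y ^ 2) * w ≤ sw := by
        rcases hsw with h | h
        · exact (mul_le_mul hSu hw1 (by linarith only [hw1']) hS0).trans h
        · refine (pow_le_pow_iff_left₀ (mul_nonneg hS.le (by linarith only [hw1'])) hsw0 two_ne_zero).1 ?_
          refine le_trans ?_ h
          have hs := semi_pos (t := y) ⟨by linarith only [hy0], hy.2⟩
          calc ((1 - y ^ 2) * w) ^ 2 = (1 - y ^ 2) * (w * semi y) ^ 2 := by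
                rw [mul_pow w, semi_sq ⟨by linarith only [hy0], hy.2.le⟩]; ring
            _ ≤ _ := mul_le_mul hSu (pow_le_pow_left₀ (mul_nonneg (by linarith only [hw1']) hs.le) hWc 2)
                (sq_nonneg _) hS0
      have hK2 : 0 ≤ cT t0 + 2 * K0 := by linarith only [hK, hct.1, hct.2]
      have hcK : 0 < cC p + K0 := by linarith only [hc0, hct.2, hK]
      have hcK0 : 0 < cT t0 + K0 := by linarith only [hc0, hct.1, hK, hct.2]
      have hmono : cC p ^ 2 / (cC p + K0) ≤ cT t0 ^ 2 / (cT t0 + K0) := by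
        rw [div_le_div_iff₀ hcK hcK0]
        have hd := sub_nonneg.2 hct.1
        have hg : 0 ≤ cC p * cT t0 + K0 * (cC p + cT t0) := by
          rcases le_total 0 K0 with h | h
          · have := hc00.trans hct.1
            positivity
          · have h2 : 0 ≤ cC p + 2 * K0 := by linarith only [hK, hct.2]
            linear_combination (1 / 2) * mul_nonneg hc00 hK2 +
              (1 / 2) * mul_nonneg (hc00.trans hct.1) h2
        linear_combination mul_nonneg hd hg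
      calc cC p ^ 2 * ((1 - y ^ 2) * w) / T' = cC p ^ 2 / T' * ((1 - y ^ 2) * w) := by ring
        _ ≤ cT t0 ^ 2 / T2 * sw := by
            refine mul_le_mul (((div_le_div_of_nonneg_left (sq_nonneg _) hcK hT'').trans hmono).trans
              (div_le_div_of_nonneg_left (sq_nonneg _) hT2' hT2)) hsw'
              (mul_nonneg hS.le (by linarith only [hw1'])) (by positivity)
        _ = _ := by ring
  have hlin := inner_le_lin p (by omega) (θ := θ) hy hr hr1 hT'0 hT'def hN0 hN' hf'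
  rw [← hw, ← hq] at hlin
  refine hlin.trans ?_
  have hlam := lamC_pos hp2
  have hEle : E ≤ (p : ℝ) ^ 2 * errNum p (y ^ 2) := by
    refine hE.trans ?_
    have e : (p : ℝ) ^ 2 * errNum p (y ^ 2) = kapC p +
        ((pC p + eC p ^ 2 / sC p) * y ^ 2 - 3 / 2) ^ 2 / (4 * (lamC p / (p : ℝ) ^ 2)) := by
      have : (p : ℝ) ≠ 0 := by linarith only [hp2]
      rw [errNum]; field_simp; ring
    rw [e]
    refine add_le_add (by rw [kapC, ← mul_one_div (24 / 5 : ℝ), ← ht]; linarith only [ht1])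
      (div_le_div₀ (sq_nonneg _) ?_ (by positivity) ?_)
    · have hsl : sT t1 ≤ sT t := by rw [sT, sT]; linarith only [ht1]
      have hsl' : sT t ≤ sT t0 := by rw [sT, sT]; linarith only [ht0]
      have hs1 : 0 < sT t1 := by rw [sT]; linarith only [h14]
      set Q := pT t + eT t ^ 2 / sT t with hQ
      have eQ : (pC p + eC p ^ 2 / sC p) * y ^ 2 = Q * x ^ 2 := by
        rw [hQ, ← ep, ← ee, ← es, hu]
        have : t ≠ 0 := htpos.ne'
        have : sC p ≠ 0 := by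
          have := hs1.trans_le hsl; rw [← es] at this; exact (left_ne_zero_of_mul this.ne')
        field_simp
      rw [eQ]
      have hQ0 : 0 ≤ Q := by
        have := pT_nonneg htpos.le (ht1.trans h14)
        have := hs1.trans_le hsl
        rw [hQ]; positivity
      rcases hD with h | h | h
      · rw [h, zero_pow two_ne_zero]; exact sq_nonneg _
      · have hh : Q * x ^ 2 ≤ qHi t0 t1 * hi ^ 2 := by
          refine mul_le_mul (add_le_add (pT_anti h00 ht0)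
            (div_le_div₀ (sq_nonneg _) (pow_le_pow_left₀ het0 het 2) hs1 hsl)) hxh (sq_nonneg _) ?_
          have := pT_nonneg h00 ((ht0.trans ht1).trans h14)
          have := hs1
          unfold qHi; positivity
        rw [← neg_sq (Q * x ^ 2 - 3 / 2)]
        exact pow_le_pow_left₀ hD0 (by linarith only [h, hh]) 2
      · have hh : qLo t0 t1 * lo ^ 2 ≤ Q * x ^ 2 := by
          refine mul_le_mul (add_le_add (pT_anti htpos.le ht1)
            (div_le_div₀ (sq_nonneg _) (pow_le_pow_left₀ (eT_nonneg h14)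
              (by rw [eT, eT]; linarith only [ht1]) 2) (hs1.trans_le hsl) hsl')) hxl (sq_nonneg _) hQ0
        exact pow_le_pow_left₀ hD0 (by linarith only [h, hh]) 2
    · refine mul_le_mul_of_nonneg_left ?_ (by norm_num)
      have e : lamC p / (p : ℝ) ^ 2 = 2 + 2 * (1 / (p : ℝ)) - cC p + aC p / 2 := by
        have : (p : ℝ) ≠ 0 := by linarith only [hp2]
        rw [lamC]; field_simp; ring
      rw [e, ei, ea, ec]
      exact le_of_eq_of_le (by rw [lamT]) (lamT_mono htpos.le ht1 h14)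
  have hz : ((p : ℝ) * (1 - y ^ 2) * q) ≥ 0 := by positivity
  have hquad : N * ((p : ℝ) * (1 - y ^ 2) * q) - f * ((p : ℝ) * (1 - y ^ 2) * q) ^ 2 ≤ E := by
    refine quad_le (z0 := z0) (z1 := z1) hz hN0 hE0 ?_
    rcases hopt with h | ⟨h1, h2, h2', h3, h4, h5⟩ | ⟨h1, h2, h3, h4⟩
    · exact Or.inl h
    · refine Or.inr (Or.inl ⟨h1, h2, h2', ?_⟩)
      have hq0q : q0 ≤ q := by
        refine (le_abs_self q0).trans ?_
        refine (pow_le_pow_iff_left₀ (abs_nonneg _) hq0' two_ne_zero).1 ?_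
        rw [sq_abs, qsq_eq hw1', le_div_iff₀ (by linarith only [hw1'])]
        refine le_of_mul_le_mul_right ?_ (show (0 : ℝ) < w0 by linarith only [h1w0])
        linarith only [qsq_mono h1w0 hw0, mul_le_mul_of_nonneg_left h5 (show 0 ≤ w by linarith only [hw1'])]
      have h6 : z0 * (1 / (p : ℝ)) ≤ (1 - y ^ 2) * q := by
        refine ((mul_le_mul_of_nonneg_left (ei.le.trans hip) h3).trans h4).trans ?_
        calc (1 - ub) * q0 ≤ (1 - ub) * q := mul_le_mul_of_nonneg_left hq0q (by linarith only [hub1])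
          _ ≤ _ := mul_le_mul_of_nonneg_right (by linarith only [hub]) hq0'
      rw [mul_one_div, div_le_iff₀ (by linarith only [hp2])] at h6
      linarith only [h6]
    · refine Or.inr (Or.inr ⟨?_, h3, h4⟩)
      have h6 : (1 - y ^ 2) * q ≤ z1 * (1 / (p : ℝ)) :=
        ((mul_le_mul hSu hqle hq0' hS0).trans h1).trans
          (mul_le_mul_of_nonneg_left (hip0.trans ei.ge) h2)
      rw [mul_one_div, le_div_iff₀ (by linarith only [hp2])] at h6
      linarith only [h6]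
  have e : N * (q / p) - (1 - y ^ 2) * (f * q ^ 2) =
      (N * ((p : ℝ) * (1 - y ^ 2) * q) - f * ((p : ℝ) * (1 - y ^ 2) * q) ^ 2) /
        ((p : ℝ) ^ 2 * (1 - y ^ 2)) := by
    have : (p : ℝ) ≠ 0 := by linarith only [hp2]
    field_simp
  rw [e, div_le_div_iff₀ (by positivity) hS]
  calc _ ≤ E * (1 - y ^ 2) := mul_le_mul_of_nonneg_right hquad hS.le
    _ ≤ (p : ℝ) ^ 2 * errNum p (y ^ 2) * (1 - y ^ 2) := mul_le_mul_of_nonneg_right hEle hS.le
    _ = _ := by ring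

/-- The bound on the inner function on a range. -/
def Good (θ t0 t1 lo hi : ℝ) : Prop :=
  ∀ (p : ℕ) (y r ϑ : ℝ), 2 ≤ p → y ∈ Set.Ioo (0 : ℝ) 1 → 0 < r → r ≤ 1 →
    lo ≤ √((p : ℝ) + 2) * y → √((p : ℝ) + 2) * y ≤ hi → y ^ 2 ≤ 9 / 20 →
    t0 ≤ 1 / ((p : ℝ) + 2) → 1 / ((p : ℝ) + 2) ≤ t1 →
    (0 ≤ θ → ThetaOK θ t1 → (r ^ p)⁻¹ * semi y ≤ wide θ (√((p : ℝ) + 2) * y)) →
    inner p y r ϑ ≤ errNum p (y ^ 2) / (1 - y ^ 2)

theorem Cap.w_le {θ lo hi t0 t1 ub Wc W : ℝ} (B : Cap θ lo hi t0 t1 ub Wc W)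
    {p : ℕ} {y r : ℝ} (hy : y ∈ Set.Ioo (0 : ℝ) 1) (hr : 0 < r)
    (hx0 : lo ≤ √((p : ℝ) + 2) * y) (hx1 : √((p : ℝ) + 2) * y ≤ hi) (hu : y ^ 2 ≤ 9 / 20)
    (ht1 : 1 / ((p : ℝ) + 2) ≤ t1)
    (hw : (r ^ p)⁻¹ * semi y ≤ wide θ (√((p : ℝ) + 2) * y)) :
    y ^ 2 ≤ ub ∧ (r ^ p)⁻¹ * semi y ≤ Wc ∧ (r ^ p)⁻¹ ≤ W := by
  obtain ⟨hθ0, -, hlo, -, -, hubs, hub1, hW0, hwide, hW⟩ := B
  have hub : y ^ 2 ≤ ub := by
    rcases hubs with h | h
    · have e : y ^ 2 = (√((p : ℝ) + 2) * y) ^ 2 * (1 / ((p : ℝ) + 2)) := by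
        rw [mul_pow, Real.sq_sqrt (by positivity)]; field_simp
      rw [e]
      refine le_trans ?_ h
      exact mul_le_mul (pow_le_pow_left₀ (by have := hy.1; positivity) hx1 2) ht1 (by positivity)
        (sq_nonneg _)
    · exact hu.trans h
  have hv0 : 0 < (r ^ p)⁻¹ := inv_pos.2 (pow_pos hr p)
  have hs := semi_pos (t := y) ⟨by linarith only [hy.1], hy.2⟩
  have hWc : (r ^ p)⁻¹ * semi y ≤ Wc := by
    refine hw.trans ((wide_le hθ0 hlo hx0 hx1).trans ?_)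
    rw [div_le_iff₀ (lift_pos hθ0 hlo)]
    exact hwide
  refine ⟨hub, hWc, ?_⟩
  refine (pow_le_pow_iff_left₀ hv0.le hW0 two_ne_zero).1 ?_
  refine le_of_mul_le_mul_right ?_ (show (0 : ℝ) < 1 - ub by linarith only [hub1])
  calc ((r ^ p)⁻¹) ^ 2 * (1 - ub) ≤ ((r ^ p)⁻¹) ^ 2 * semi y ^ 2 := by
        rw [semi_sq ⟨by linarith only [hy.1], hy.2.le⟩]
        exact mul_le_mul_of_nonneg_left (by linarith only [hub]) (sq_nonneg _)
    _ = ((r ^ p)⁻¹ * semi y) ^ 2 := by ring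
    _ ≤ Wc ^ 2 := pow_le_pow_left₀ (by positivity) hWc 2
    _ ≤ _ := hW

theorem Cap.one {θ lo hi t0 t1 ub Wc W : ℝ} (B : Cap θ lo hi t0 t1 ub Wc W)
    (P : Piece lo hi t0 t1 ub Wc 1 W) : Good θ t0 t1 lo hi := by
  intro p y r ϑ hp hy hr hr1 h0 h1 hu h2 h3 hw
  obtain ⟨hub, hWc, hW⟩ := B.w_le hy hr h0 h1 hu h3 (hw B.hθ0 B.hθ)
  exact P p y r ϑ hp hy hr hr1 h0 h1 h2 h3 B.hlo B.ht0 B.ht1 hub B.hub1 hWc
    ((one_le_inv₀ (pow_pos hr p)).2 (pow_le_one₀ hr.le hr1)) hW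

theorem Piece.append {lo hi t0 t1 ub Wc w0 w w1 : ℝ} (h : Piece lo hi t0 t1 ub Wc w0 w)
    (h' : Piece lo hi t0 t1 ub Wc w w1) : Piece lo hi t0 t1 ub Wc w0 w1 :=
  fun p y r θ hp hy hr hr1 a b c d e g i j k l m n => (le_total (r ^ p)⁻¹ w).elim
    (fun hm => h p y r θ hp hy hr hr1 a b c d e g i j k l m hm)
    (fun hm => h' p y r θ hp hy hr hr1 a b c d e g i j k l hm n)

theorem Good.append {θ t0 t1 lo mi hi : ℝ} (h : Good θ t0 t1 lo mi) (h' : Good θ t0 t1 mi hi) :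
    Good θ t0 t1 lo hi :=
  fun p y r ϑ hp hy hr hr1 h0 h1 hu h2 h3 hw => (le_total (√((p : ℝ) + 2) * y) mi).elim
    (fun hm => h p y r ϑ hp hy hr hr1 h0 hm hu h2 h3 hw)
    (fun hm => h' p y r ϑ hp hy hr hr1 hm h1 hu h2 h3 hw)

end Vale.Agent.P237.All.Transport.High
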