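import Vale.Agent.P237.All.High.Data
import Vale.Agent.P237.All.Bounds

/-!
P237, every dimension, high regime: a certificate at the weights `(0, 1/4, 1)` at every common
integral `J ≥ exp (17 / m) P_m`, `m = p + 1 ≥ 3`.
-/

noncomputable section

open MeasureTheory Set Real intervalIntegral

namespace Vale.Agent.P237.All.Transport.High

/-- The bound of the certificate. -/
def highPi (p : ℕ) (y : ℝ) : ℝ :=
  semi y ^ (p + 1) * (zeroOrder p (1 / 4) y - 1 / 4 * (34 / (((p : ℝ) + 1) * ((p : ℝ) + 2)))) +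
    semi y ^ (p - 1) * errNum p (y ^ 2)

theorem highPi_cont (p : ℕ) : Continuous (highPi p) := by
  have := semi_continuous
  unfold highPi zeroOrder errNum
  fun_prop

theorem inner_le {p : ℕ} (hp : 2 ≤ p) {y t r : ℝ} (hy : y ∈ Ioo (0 : ℝ) 1) (ht : t ≤ 1) (hr : 0 < r)
    (h : Reach p y r) :
    inner p y r (t - y) ≤ errNum p (y ^ 2) / (1 - y ^ 2) := by
  rcases le_total r 1 with h1 | h1
  · exact inner_le_neg hp hy hr h1 (by linarith) h
  · have hp2 : (2 : ℝ) ≤ p := by exact_mod_cast hp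
    have hS : 0 < 1 - y ^ 2 := by nlinarith [hy.1, hy.2]
    refine (inner_le_pos p hp hy h1).trans ?_
    rw [← div_div]
    refine div_le_div_of_nonneg_right ?_ hS.le
    unfold errNum
    have : 0 ≤ kapC p := by
      rw [kapC, sub_nonneg, div_le_iff₀ (by positivity)]; linarith
    have : (0 : ℝ) ≤ kapC p / (p : ℝ) ^ 2 := by positivity
    linarith

theorem c2_ge {p : ℕ} {J : ℝ} (hJ : exp (17 / ((p : ℝ) + 1)) * (2 * mass (p + 1) semi 1) ≤ J) :
    34 / (((p : ℝ) + 1) * ((p : ℝ) + 2)) ≤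
      (J / ∫ s in (-1 : ℝ)..1, semi s ^ (p + 1)) ^ (2 / ((p : ℝ) + 2)) - 1 := by
  have hP := mass_one_pos isProfile_semi (p + 1)
  rw [integral_even isProfile_semi (p + 1)]
  have hx : exp (17 / ((p : ℝ) + 1)) ≤ J / (2 * mass (p + 1) semi 1) := by
    rwa [le_div_iff₀ (by positivity)]
  have hpos := (exp_pos _).trans_le hx
  rw [Real.rpow_def_of_pos hpos]
  have hl := (Real.le_log_iff_exp_le hpos).2 hx
  have h2 := mul_le_mul_of_nonneg_right hl (show 0 ≤ 2 / ((p : ℝ) + 2) by positivity)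
  have e : 17 / ((p : ℝ) + 1) * (2 / ((p : ℝ) + 2)) = 34 / (((p : ℝ) + 1) * ((p : ℝ) + 2)) := by
    field_simp; ring
  linarith [Real.add_one_le_exp (log (J / (2 * mass (p + 1) semi 1)) * (2 / ((p : ℝ) + 2)))]

theorem budget {p : ℝ} (hp : 2 ≤ p) :
    (3 * (pC p + eC p ^ 2 / sC p) ^ 2 / ((p + 2) * (p + 4)) -
        3 * (pC p + eC p ^ 2 / sC p) / (p + 2) + 9 / 4) / (4 * lamC p) + kapC p / p ^ 2 <
      17 / 2 / (p + 2) ^ 2 := by
  have hl := lamC_pos hp
  have hsC : 0 < sC p := by rw [sC]; linarith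
  obtain ⟨q, hq, rfl⟩ : ∃ q, 0 ≤ q ∧ p = q + 2 := ⟨p - 2, by linarith, by ring⟩
  simp only [lamC, sC] at hl hsC ⊢
  rw [div_add_div _ _ (by linarith) (by positivity), div_lt_div_iff₀ (by positivity) (by positivity)]
  simp only [pC, aC, eC, cC, kapC] at hl ⊢
  have : 11 / 4 * (q + 2) - 1 ≠ 0 := hsC.ne'
  have h11 : 0 < (q + 2) * 11 - 4 := by linarith
  have : (q + 2) * 11 - 4 ≠ 0 := h11.ne'
  field_simp
  nlinarith only [hq, pow_nonneg hq 2, pow_nonneg hq 3, pow_nonneg hq 4, pow_nonneg hq 5, pow_nonneg hq 6,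
    pow_nonneg hq 7, pow_nonneg hq 8, pow_nonneg hq 9, pow_nonneg hq 10, pow_nonneg hq 11,
    pow_nonneg hq 12, pow_nonneg hq 13, pow_nonneg hq 14, pow_nonneg hq 15, pow_nonneg hq 16,
    pow_nonneg hq 17, pow_nonneg hq 18]

theorem highPi_neg {p : ℕ} (hp : 2 ≤ p) : ∫ y in (0 : ℝ)..1, highPi p y < 0 := by
  obtain ⟨q, rfl⟩ : ∃ q, p = q + 1 := ⟨p - 1, by omega⟩
  have hp2 : (2 : ℝ) ≤ (q : ℝ) + 1 := by exact_mod_cast hp
  have hb := budget hp2
  set P := pC ((q : ℝ) + 1) + eC ((q : ℝ) + 1) ^ 2 / sC ((q : ℝ) + 1) with hP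
  set L := 4 * lamC ((q : ℝ) + 1) with hL
  have hL0 : 0 < L := by
    have := lamC_pos hp2
    rw [hL]; linarith
  set G := 1 / 4 * (34 / ((((q + 1 : ℕ) : ℝ) + 1) * (((q + 1 : ℕ) : ℝ) + 2))) with hG
  have hs := semi_continuous
  have e : highPi (q + 1) = fun y => semi y ^ (q + 1 + 1) * zeroOrder (q + 1) (1 / 4) y -
      G * semi y ^ (q + 2) + P ^ 2 / L * (y ^ 4 * semi y ^ q) -
      3 * P / L * (y ^ 2 * semi y ^ q) +
      (9 / 4 / L + kapC ((q : ℝ) + 1) / ((q : ℝ) + 1) ^ 2) * semi y ^ q := by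
    funext y
    simp only [highPi, errNum, hP, hL, hG, Nat.add_sub_cancel]
    push_cast
    ring
  have hi1 : IntervalIntegrable (fun y => semi y ^ (q + 1 + 1) * zeroOrder (q + 1) (1 / 4) y)
      volume 0 1 := (show Continuous _ by unfold zeroOrder; fun_prop).intervalIntegrable _ _
  have hi : ∀ n, IntervalIntegrable (fun y => semi y ^ n) volume 0 1 := fun n =>
    (show Continuous _ by fun_prop).intervalIntegrable _ _
  have hi' : ∀ j, IntervalIntegrable (fun y => y ^ j * semi y ^ q) volume 0 1 := fun j =>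
    (show Continuous _ by fun_prop).intervalIntegrable _ _
  rw [e, intervalIntegral.integral_add (((hi1.sub ((hi _).const_mul _)).add
      ((hi' 4).const_mul _)).sub ((hi' 2).const_mul _)) ((hi q).const_mul _),
    intervalIntegral.integral_sub ((hi1.sub ((hi _).const_mul _)).add ((hi' 4).const_mul _))
      ((hi' 2).const_mul _),
    intervalIntegral.integral_add (hi1.sub ((hi _).const_mul _)) ((hi' 4).const_mul _),
    intervalIntegral.integral_sub hi1 ((hi _).const_mul _), intervalIntegral.integral_const_mul,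
    intervalIntegral.integral_const_mul, intervalIntegral.integral_const_mul,
    intervalIntegral.integral_const_mul, zeroOrder_integral, ← mass_semi, ← mass_semi, moment_two,
    moment_four, mass_semi_step]
  have hM := mass_one_pos isProfile_semi q
  have key := mul_lt_mul_of_pos_right hb hM
  have e1 : (3 * P ^ 2 / (((q : ℝ) + 1 + 2) * ((q : ℝ) + 1 + 4)) -
      3 * P / ((q : ℝ) + 1 + 2) + 9 / 4) / L + kapC ((q : ℝ) + 1) / ((q : ℝ) + 1) ^ 2 =
      P ^ 2 / L * (3 / (((q : ℝ) + 3) * ((q : ℝ) + 5))) - 3 * P / L * (1 / ((q : ℝ) + 3)) +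
        (9 / 4 / L + kapC ((q : ℝ) + 1) / ((q : ℝ) + 1) ^ 2) := by
    rw [show (q : ℝ) + 1 + 2 = q + 3 by ring, show (q : ℝ) + 1 + 4 = q + 5 by ring]
    field_simp
    ring
  have e2 : G * (((q : ℝ) + 2) / ((q : ℝ) + 3) * mass q semi 1) =
      17 / 2 / ((q : ℝ) + 1 + 2) ^ 2 * mass q semi 1 := by
    rw [hG]; push_cast; field_simp; ring
  rw [e1] at key
  have e3 : P ^ 2 / L * (3 * mass q semi 1 / (((q : ℝ) + 3) * ((q : ℝ) + 5))) -
      3 * P / L * (mass q semi 1 / ((q : ℝ) + 3)) +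
      (9 / 4 / L + kapC ((q : ℝ) + 1) / ((q : ℝ) + 1) ^ 2) * mass q semi 1 =
    (P ^ 2 / L * (3 / (((q : ℝ) + 3) * ((q : ℝ) + 5))) - 3 * P / L * (1 / ((q : ℝ) + 3)) +
        (9 / 4 / L + kapC ((q : ℝ) + 1) / ((q : ℝ) + 1) ^ 2)) * mass q semi 1 := by ring
  linarith

/-- The certificate of the high regime. -/
def highCert (p : ℕ) (hp : 2 ≤ p) (J : ℝ)
    (hJ : exp (17 / ((p : ℝ) + 1)) * (2 * mass (p + 1) semi 1) ≤ J) : Cert p J 0 (1 / 4) 1 where
  β := 1
  ell := ellOf p (1 / 4) (3 / 2)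
    ((J / ∫ s in (-1 : ℝ)..1, semi s ^ (p + 1)) ^ (2 / ((p : ℝ) + 2)))
  ell_nonneg := by
    have h := c2_ge hJ
    have hp2 : (2 : ℝ) ≤ p := by exact_mod_cast hp
    have h0 : (0 : ℝ) ≤ 34 / (((p : ℝ) + 1) * ((p : ℝ) + 2)) := by positivity
    have ha := (aC_mem (show (0 : ℝ) ≤ p by linarith)).2
    rw [ellOf, potA_eq]
    nlinarith [mul_le_mul_of_nonneg_left ha (show (0 : ℝ) ≤ p by linarith)]
  V := pot p (potA p (1 / 4)) (cC p)
  Vy := potY p (potA p (1 / 4)) (cC p)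
  Vt := potT p (potA p (1 / 4)) (cC p)
  Pi := highPi p
  chain := fun Z Z' t _ hy hZ => pot_chain _ _ Z Z' t hy hZ
  along := fun Z hZ h0 hα h1 => pot_along _ _ Z hZ h0 hα h1
  V_zero := pot_zero _ _
  V_one := pot_one _ _
  Pi_cont := (highPi_cont p).continuousOn
  Pi_neg := highPi_neg hp
  point := fun y hy t ht r lam hr _ _ _ hreach _ _ _ => by
    rw [density_inner p _ lam hy hr]
    have h := inner_le hp hy ht.2.le hr hreach
    have hc := c2_ge hJ
    have hS : 0 < 1 - y ^ 2 := by nlinarith [hy.1, hy.2]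
    have e : semi y ^ (p + 1) * (errNum p (y ^ 2) / (1 - y ^ 2)) =
        semi y ^ (p - 1) * errNum p (y ^ 2) := by
      rw [show p + 1 = p - 1 + 2 by omega, pow_add, semi_sq ⟨by linarith [hy.1], hy.2.le⟩]
      field_simp
    have hs : 0 ≤ semi y ^ (p + 1) := pow_nonneg (Real.sqrt_nonneg _) _
    have := mul_le_mul_of_nonneg_left h hs
    have := mul_le_mul_of_nonneg_left hc hs
    rw [highPi]
    linarith

/-- A certificate at every common integral of the high regime. -/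
theorem hasCert_high (p : ℕ) (hp : 2 ≤ p) (J : ℝ)
    (lower : exp (17 / ((p : ℝ) + 1)) * (2 * mass (p + 1) semi 1) ≤ J) : HasCert p J :=
  ⟨0, 1 / 4, 1, le_rfl, by norm_num, zero_le_one, ⟨highCert p hp J lower⟩⟩

end Vale.Agent.P237.All.Transport.High
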