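import Vale.Agent.P237.All.High.Combine

/-!
P237, every dimension, high regime: a checker over `ℚ` for the boxes of a group of dimensions, run
by the kernel, and its soundness.
-/

noncomputable section

namespace Vale.Agent.P237.All.Transport.High

open Upper (mills core)

/-- The constants of a group `t0 ≤ 1 / (p + 2) ≤ t1`, all in thousandths but `t0` and `t1`. -/
structure Group where
  t0 : ℚ
  t1 : ℚ
  th : ℚ
  c0 : ℚ
  c1 : ℚ
  be : ℚ
  a1 : ℚ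
  p1 : ℚ
  e0 : ℚ
  i0 : ℚ
  i1 : ℚ
  qh : ℚ
  ql : ℚ
  lam : ℚ

/-- A part of the range of `w` on a box, in thousandths. -/
structure Part where
  w1 : ℤ
  sw : ℤ
  q0 : ℤ
  q1 : ℤ
  z0 : ℤ
  z1 : ℤ
  nn : ℤ
  ff : ℤ

/-- A box, in thousandths. -/
structure Box where
  hi : ℤ
  ub : ℤ
  wc : ℤ
  wmax : ℤ
  tt : ℤ
  t2 : ℤ
  dd : ℤ
  ee : ℤ
  parts : List Part

/-- Thousandths. -/
def th1000 (n : ℤ) : ℚ := (n : ℚ) / 1000

/-- `mills` over `ℚ`. -/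
def millsQ (x : ℚ) : ℚ := x + 9 / 5 / (x + 111 / 50)

/-- `core` over `ℚ`. -/
def coreQ (x : ℚ) : ℚ := 1 - 1 / ((1 + x ^ 2 / 2 + x ^ 4 / 8) * (12533 / 10000) * millsQ x)

/-- `lift` over `ℚ`. -/
def liftQ (θ x : ℚ) : ℚ :=
  1 + θ * coreQ x + (θ * coreQ x) ^ 2 / 2 + (θ * coreQ x) ^ 3 / 6 + (θ * coreQ x) ^ 4 / 24

/-- The constants bound the functions of the group. -/
def Group.ok (G : Group) : Bool :=
  decide (0 ≤ G.t0) && decide (G.t0 ≤ G.t1) && decide (G.t1 ≤ 1 / 4) && decide (0 ≤ G.th) &&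
    decide (G.th ≤ 17 / 20 ∨ G.th ≤ 1 - 2 * G.t1 + 97 / 100 * (G.t1 / (1 - G.t1))) &&
    decide (11 / 8 - G.t0 - 5 * G.t0 ^ 2 ≤ G.c0) &&
    decide (G.c1 ≤ 11 / 8 - G.t1 - 5 * G.t1 ^ 2) &&
    decide (G.be ≤ 11 / 8 - G.t1 - 5 * G.t1 ^ 2 - 5 / 4 * (1 + 2 * G.t1) / (1 - G.t1) *
      (1 - 3 * G.t1 + 5 / 16 * (1 + 2 * G.t1) / (1 - G.t1) * G.t1)) &&
    decide (0 ≤ G.a1) && decide (G.a1 ≤ (3 / 2 - G.t1) / (1 + G.t1)) &&
    decide (G.p1 ≤ 21 / 4 - 11 / 2 * G.t1 - (1 - 2 * G.t1) * ((3 / 2 - G.t1) / (1 + G.t1))) &&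
    decide (3 / 4 - G.t0 / 2 ≤ G.e0) && decide (0 ≤ G.i0) &&
    decide (G.i0 ≤ G.t0 / (1 - 2 * G.t0)) && decide (G.t1 / (1 - 2 * G.t1) ≤ G.i1) &&
    decide (21 / 4 - 11 / 2 * G.t0 - (1 - 2 * G.t0) * ((3 / 2 - G.t0) / (1 + G.t0)) +
      (3 / 4 - G.t0 / 2) ^ 2 / (11 / 4 - 13 / 2 * G.t1) ≤ G.qh) &&
    decide (G.ql ≤ 21 / 4 - 11 / 2 * G.t1 - (1 - 2 * G.t1) * ((3 / 2 - G.t1) / (1 + G.t1)) +
      (3 / 4 - G.t1 / 2) ^ 2 / (11 / 4 - 13 / 2 * G.t0)) &&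
    decide (2 + 2 * (G.t1 / (1 - 2 * G.t1)) - (11 / 8 - G.t1 - 5 * G.t1 ^ 2) +
      (3 / 2 - G.t1) / (1 + G.t1) / 2 ≤ G.lam)

/-- The parts cover `[w0, W]`. -/
def partsOk (G : Group) (lo hi ub wc T T2 E : ℚ) : ℚ → List Part → ℚ → Bool
  | w0, [], W => decide (W = w0)
  | w0, P :: l, W =>
    let w1 := th1000 P.w1
    let sw := th1000 P.sw
    let q0 := th1000 P.q0
    let q1 := th1000 P.q1
    let z0 := th1000 P.z0
    let z1 := th1000 P.z1
    let N := th1000 P.nn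
    let f := th1000 P.ff
    let S := 1 - lo ^ 2 * G.t0
    decide (1 ≤ w0) && decide (w0 ≤ w1) && decide (0 ≤ sw) &&
    decide (S * w1 ≤ sw ∨ S * wc ^ 2 ≤ sw ^ 2) &&
    decide ((w1 - 1) ^ 2 ≤ q1 ^ 2 * w1) && decide (0 ≤ q1) && decide (0 ≤ N) &&
    decide (3 / 2 - G.p1 * lo ^ 2 + (2 * G.c0 * (S * (w1 - 1)) * G.e0 * hi ^ 2 +
      G.e0 ^ 2 * (hi ^ 2) ^ 2 * (q1 * G.i1)) / T ≤ N) &&
    decide (f ≤ (G.a1 * w1 + 4) / (1 + w1) + G.a1 * G.i0 / w1 - G.c0 ^ 2 * sw / T2) &&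
    decide ((0 ≤ f ∧ N ^ 2 ≤ 4 * f * E) ∨
      (0 ≤ f ∧ N ≤ 2 * f * z0 ∧ z0 * (N - f * z0) ≤ E ∧ 0 ≤ z0 ∧ z0 * G.i1 ≤ (1 - ub) * q0 ∧
        q0 ^ 2 * w0 ≤ (w0 - 1) ^ 2) ∨
      (S * q1 ≤ z1 * G.i0 ∧ 0 ≤ z1 ∧ 2 * f * z1 ≤ N ∧ z1 * (N - f * z1) ≤ E)) &&
    partsOk G lo hi ub wc T T2 E w1 l W

/-- A single box from `lo`. -/
def Box.ok (G : Group) (lo : ℚ) (B : Box) : Bool :=
  let hi := th1000 B.hi
  let ub := th1000 B.ub
  let wc := th1000 B.wc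
  let W := th1000 B.wmax
  let T := th1000 B.tt
  let T2 := th1000 B.t2
  let D := th1000 B.dd
  let E := th1000 B.ee
  let K := min (lo ^ 2 * G.be) (hi ^ 2 * G.be)
  decide (lo ≤ hi ∧ lo ^ 2 * G.t0 ≤ 1) && decide (hi ^ 2 * G.t1 ≤ ub ∨ 9 / 20 ≤ ub) && decide (ub < 1) && decide (0 ≤ W) &&
    decide (20665 / 10000 * millsQ hi ≤ wc * liftQ G.th lo) &&
    decide (wc ^ 2 ≤ W ^ 2 * (1 - ub)) &&
    decide (0 < T) && decide (T ≤ G.c1 + K) && decide (0 ≤ G.c1 + 2 * K) && decide (0 < T2) &&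
    decide (T2 ≤ 11 / 8 - G.t0 - 5 * G.t0 ^ 2 + K) && decide (0 ≤ D) &&
    decide (D = 0 ∨ D ≤ 3 / 2 - G.qh * hi ^ 2 ∨ D ≤ G.ql * lo ^ 2 - 3 / 2) && decide (0 ≤ E) &&
    decide (E ≤ 31 / 20 - 24 / 5 * G.t1 + D ^ 2 / (4 * G.lam)) &&
    partsOk G lo hi ub wc T T2 E 1 B.parts W

/-- The boxes start at `lo`, and end past `y ^ 2 = 9 / 20` or at the analytic tail. -/
def boxesOk (G : Group) : ℚ → List Box → Bool
  | lo, [] => decide (0 ≤ lo) && decide (9 / 20 < lo ^ 2 * G.t0 ∨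
      (G.th = 124 / 125 ∧ G.t0 = 0 ∧ G.t1 = 1 / 132 ∧ lo = 11))
  | lo, B :: l => decide (0 ≤ lo) && B.ok G lo && boxesOk G (th1000 B.hi) l

theorem cast_le' {a b : ℚ} (h : a ≤ b) : (a : ℝ) ≤ b := Rat.cast_le.2 h

theorem millsQ_cast (x : ℚ) : ((millsQ x : ℚ) : ℝ) = mills x := by
  simp only [millsQ, mills]; push_cast; rfl

theorem liftQ_cast (θ x : ℚ) : ((liftQ θ x : ℚ) : ℝ) = lift θ x := by
  simp only [liftQ, coreQ, millsQ, lift, core, mills]; push_cast; rfl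

/-- The facts on the constants of a group, over `ℝ`. -/
structure Group.Facts (G : Group) : Prop where
  h0 : (0 : ℝ) ≤ G.t0
  h01 : (G.t0 : ℝ) ≤ G.t1
  h1 : (G.t1 : ℝ) ≤ 1 / 4
  hth0 : (0 : ℝ) ≤ G.th
  hth : ThetaOK (G.th : ℝ) G.t1
  hc0 : cT G.t0 ≤ G.c0
  hc1 : (G.c1 : ℝ) ≤ cT G.t1
  hbe : (G.be : ℝ) ≤ betaT G.t1
  ha0 : (0 : ℝ) ≤ G.a1
  ha1 : (G.a1 : ℝ) ≤ aT G.t1
  hp1 : (G.p1 : ℝ) ≤ pT G.t1
  he0 : eT G.t0 ≤ G.e0
  hi0' : (0 : ℝ) ≤ G.i0
  hi0 : (G.i0 : ℝ) ≤ ipT G.t0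
  hi1 : ipT G.t1 ≤ G.i1
  hqh : qHi G.t0 G.t1 ≤ G.qh
  hql : (G.ql : ℝ) ≤ qLo G.t0 G.t1
  hlam : lamT G.t1 ≤ G.lam

theorem Group.facts {G : Group} (h : G.ok = true) : G.Facts := by
  simp only [Group.ok, Bool.and_eq_true, decide_eq_true_eq] at h
  obtain ⟨⟨⟨⟨⟨⟨⟨⟨⟨⟨⟨⟨⟨⟨⟨⟨⟨a, b⟩, c⟩, d⟩, e⟩, f⟩, g⟩, i⟩, j⟩, k⟩, l⟩, m⟩, n⟩, o⟩, q⟩, r⟩, s⟩, u⟩ := h
  have a := cast_le' a; have b := cast_le' b; have c := cast_le' c; have d := cast_le' d
  have f := cast_le' f; have g := cast_le' g; have i := cast_le' i; have j := cast_le' j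
  have k := cast_le' k; have l := cast_le' l; have m := cast_le' m; have n := cast_le' n
  have o := cast_le' o; have q := cast_le' q; have r := cast_le' r; have s := cast_le' s
  have u := cast_le' u
  push_cast at a b c d f g i j k l m n o q r s u
  refine ⟨a, b, c, d, ?_, f, g, i, j, k, l, m, n, o, q, r, s, u⟩
  rcases e with e | e <;> have e := cast_le' e <;> push_cast at e
  · exact Or.inl e
  · exact Or.inr e

theorem parts_sound {G : Group} (F : G.Facts) {lo hi ub wc T T2 D E : ℚ}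
    (hS : 0 ≤ 1 - (lo : ℝ) ^ 2 * G.t0) (hT0 : (0 : ℝ) < T)
    (hT : (T : ℝ) ≤ cT G.t1 + min ((lo : ℝ) ^ 2 * betaT G.t1) ((hi : ℝ) ^ 2 * betaT G.t1))
    (hK : 0 ≤ cT G.t1 + 2 * min ((lo : ℝ) ^ 2 * betaT G.t1) ((hi : ℝ) ^ 2 * betaT G.t1))
    (hT2' : (0 : ℝ) < T2)
    (hT2 : (T2 : ℝ) ≤ cT G.t0 + min ((lo : ℝ) ^ 2 * betaT G.t1) ((hi : ℝ) ^ 2 * betaT G.t1))
    (hD0 : (0 : ℝ) ≤ D)
    (hD : (D : ℝ) = 0 ∨ (D : ℝ) ≤ 3 / 2 - qHi G.t0 G.t1 * (hi : ℝ) ^ 2 ∨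
      (D : ℝ) ≤ qLo G.t0 G.t1 * (lo : ℝ) ^ 2 - 3 / 2)
    (hE0 : (0 : ℝ) ≤ E)
    (hE : (E : ℝ) ≤ 31 / 20 - 24 / 5 * (G.t1 : ℝ) + (D : ℝ) ^ 2 / (4 * lamT G.t1)) :
    ∀ (l : List Part) (w0 W : ℚ), partsOk G lo hi ub wc T T2 E w0 l W = true →
      Piece lo hi G.t0 G.t1 ub wc w0 W ∨ (l = [] ∧ W = w0) := by
  intro l
  induction l with
  | nil =>
    intro w0 W h
    simp only [partsOk, decide_eq_true_eq] at h
    exact Or.inr ⟨rfl, h⟩
  | cons P l ih =>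
    intro w0 W h
    simp only [partsOk, Bool.and_eq_true, decide_eq_true_eq] at h
    obtain ⟨⟨⟨⟨⟨⟨⟨⟨⟨⟨h1, h2⟩, h3⟩, h4⟩, h5⟩, h6⟩, h7⟩, h8⟩, h9⟩, h10⟩, hrest⟩ := h
    set w1 := th1000 P.w1
    have h1 := cast_le' h1; have h2 := cast_le' h2; have h3 := cast_le' h3
    have h5 := cast_le' h5; have h6 := cast_le' h6; have h7 := cast_le' h7
    have h8 := cast_le' h8; have h9 := cast_le' h9
    push_cast at h1 h2 h3 h5 h6 h7 h8 h9
    have hw1 : (1 : ℝ) ≤ w1 := h1.trans h2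
    have ha := F.ha0
    have hi0 := F.hi0'
    have hip0 := ipT_nonneg F.h0 (F.h01.trans F.h1)
    have hip1 : 0 ≤ ipT (G.t1 : ℝ) := ipT_nonneg (F.h0.trans F.h01) F.h1
    have he := eT_nonneg (F.h01.trans F.h1)
    have hc : 0 ≤ cT (G.t0 : ℝ) := by
      have := F.h0; have := F.h01.trans F.h1
      simp only [cT]; nlinarith
    have hc0' : (0 : ℝ) ≤ G.c0 := hc.trans F.hc0
    have hPh : Phase lo hi G.t0 G.t1 ub wc w0 w1 (th1000 P.sw) (th1000 P.q0) (th1000 P.q1)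
        (th1000 P.z0) (th1000 P.z1) T T2 D E (th1000 P.nn) (th1000 P.ff) := by
      refine ⟨h1, hT0, hT, hK, hT2', hT2, h3, ?_, h5, h6, h7, ?_, ?_, hD0, hD, hE0, hE, ?_⟩
      · rcases h4 with h | h <;> have h := cast_le' h <;> push_cast at h
        · exact Or.inl h
        · exact Or.inr h
      · refine le_trans (add_le_add (sub_le_sub_left ?_ _) (div_le_div_of_nonneg_right ?_ hT0.le)) h8
        · exact mul_le_mul_of_nonneg_right F.hp1 (sq_nonneg _)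
        · have : (0 : ℝ) ≤ (w1 : ℝ) - 1 := by linarith only [hw1]
          have := F.hc0; have := F.he0; have := F.hi1
          gcongr
      · refine h9.trans (sub_le_sub ?_ (div_le_div_of_nonneg_right ?_ hT2'.le))
        · have := F.ha1; have := F.hi0
          have := aT_nonneg (F.h0.trans F.h01) F.h1
          unfold kT; gcongr
        · exact mul_le_mul_of_nonneg_right (pow_le_pow_left₀ hc F.hc0 2) h3
      · rcases h10 with ⟨a, b⟩ | ⟨a, b, b', c, d, e⟩ | ⟨a, b, c, d⟩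
        · have a := cast_le' a; have b := cast_le' b; push_cast at a b
          exact Or.inl ⟨a, b⟩
        · have a := cast_le' a; have b := cast_le' b; have b' := cast_le' b'
          have c := cast_le' c; have d := cast_le' d; have e := cast_le' e
          push_cast at a b b' c d e
          exact Or.inr (Or.inl ⟨a, b, b', c, le_trans (mul_le_mul_of_nonneg_left F.hi1 c) d, e⟩)
        · have a := cast_le' a; have b := cast_le' b; have c := cast_le' c; have d := cast_le' d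
          push_cast at a b c d
          exact Or.inr (Or.inr ⟨le_trans a (mul_le_mul_of_nonneg_left F.hi0 b), b, c, d⟩)
    rcases ih w1 W hrest with h | ⟨-, h⟩
    · exact Or.inl (hPh.sound.append h)
    · subst h; exact Or.inl hPh.sound

theorem boxes_sound {G : Group} (F : G.Facts) :
    ∀ (l : List Box) (lo : ℚ), boxesOk G lo l = true → Beyond (G.th : ℝ) G.t0 G.t1 lo := by
  intro l
  induction l with
  | nil =>
    intro lo h
    simp only [boxesOk, Bool.and_eq_true, decide_eq_true_eq] at h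
    obtain ⟨h0, h | ⟨ha, hb, hc, hd⟩⟩ := h
    · have h0 := cast_le' h0
      have h := (Rat.cast_lt (K := ℝ)).2 h
      push_cast at h h0
      exact Beyond.empty h0 F.h0 h
    · rw [ha, hb, hc, hd]
      push_cast
      exact beyond_eleven
  | cons B l ih =>
    intro lo h
    simp only [boxesOk, Box.ok, Bool.and_eq_true, decide_eq_true_eq] at h
    obtain ⟨⟨hlo, hB⟩, hrest⟩ := h
    obtain ⟨⟨⟨⟨⟨⟨⟨⟨⟨⟨⟨⟨⟨⟨⟨⟨a, a'⟩, b⟩, c⟩, d⟩, e⟩, f⟩, g⟩, i⟩, j⟩, k⟩, m⟩, n⟩, o⟩, q⟩, r⟩, s⟩ := hB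
    have hlo := cast_le' hlo
    have a' := cast_le' a'; have c := (Rat.cast_lt (K := ℝ)).2 c; have d := cast_le' d
    have e := cast_le' e; have f := cast_le' f; have g := (Rat.cast_lt (K := ℝ)).2 g
    have i := cast_le' i; have j := cast_le' j; have k := (Rat.cast_lt (K := ℝ)).2 k
    have n := cast_le' n; have q := cast_le' q; have r := cast_le' r
    push_cast [millsQ_cast, liftQ_cast] at hlo a' c d e f g i j k n q r
    set hi := th1000 B.hi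
    have hmin : min ((lo : ℝ) ^ 2 * G.be) ((hi : ℝ) ^ 2 * G.be) ≤
        min ((lo : ℝ) ^ 2 * betaT G.t1) ((hi : ℝ) ^ 2 * betaT G.t1) :=
      min_le_min (mul_le_mul_of_nonneg_left F.hbe (sq_nonneg _))
        (mul_le_mul_of_nonneg_left F.hbe (sq_nonneg _))
    have hlam0 : 0 < lamT (G.t1 : ℝ) := by
      have h1 := ipT_nonneg (F.h0.trans F.h01) F.h1
      have h2 := aT_nonneg (F.h0.trans F.h01) F.h1
      have h3 : cT (G.t1 : ℝ) ≤ 11 / 8 := by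
        simp only [cT]; nlinarith only [F.h0, F.h01]
      rw [lamT]; linarith only [h1, h2, h3]
    have hc01 : cT (G.t1 : ℝ) ≤ cT G.t0 := cT_anti F.h0 F.h01
    have hp := parts_sound (ub := th1000 B.ub) (wc := th1000 B.wc) (D := th1000 B.dd) F (by linarith only [a']) g
      (i.trans (add_le_add F.hc1 hmin)) (j.trans (by linarith only [F.hc1, hmin])) k
      (by
        have h := cast_le' m; push_cast at h
        rw [cT]; linarith only [h, hmin])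
      n (by
        rcases o with h | h | h
        · exact Or.inl (by rw [h]; push_cast; rfl)
        · have h := cast_le' h; push_cast at h
          exact Or.inr (Or.inl (h.trans (by
            linarith only [mul_le_mul_of_nonneg_right F.hqh (sq_nonneg (hi : ℝ))])))
        · have h := cast_le' h; push_cast at h
          exact Or.inr (Or.inr (h.trans (by
            linarith only [mul_le_mul_of_nonneg_right F.hql (sq_nonneg (lo : ℝ))]))))
      q (r.trans (add_le_add le_rfl (div_le_div_of_nonneg_left (sq_nonneg _) (by positivity)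
        (by linarith only [F.hlam]))))
      B.parts 1 (th1000 B.wmax) s
    have hcap : Cap (G.th : ℝ) lo hi G.t0 G.t1 (th1000 B.ub) (th1000 B.wc) (th1000 B.wmax) := by
      refine ⟨F.hth0, F.hth, hlo, F.h0, F.h1, ?_, c, d, e, f⟩
      rcases b with h | h <;> have h := cast_le' h <;> push_cast at h
      · exact Or.inl h
      · exact Or.inr h
    refine Good.cons ?_ (ih hi hrest)
    rcases hp with h | ⟨-, h⟩
    · push_cast at h
      exact hcap.one h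
    · intro p y r ϑ hp' hy hr hr1 x0 x1 hu t0 t1 hw
      obtain ⟨-, -, hW⟩ := hcap.w_le hy hr x0 x1 hu t1 (hw hcap.hθ0 hcap.hθ)
      rw [h] at hW
      push_cast at hW
      have : r = 1 := by
        refine le_antisymm hr1 ?_
        rw [inv_le_one₀ (pow_pos hr p)] at hW
        by_contra hlt
        exact absurd hW (not_le.2 (pow_lt_one₀ hr.le (not_le.1 hlt) (by omega)))
      subst this
      refine (inner_le_pos p hp' hy le_rfl).trans ?_
      have hS : 0 < 1 - y ^ 2 := by nlinarith only [hy.1, hy.2]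
      rw [← div_div]
      refine div_le_div_of_nonneg_right ?_ hS.le
      unfold errNum
      have hk : 0 ≤ kapC p := by
        have : (2 : ℝ) ≤ p := by exact_mod_cast hp'
        rw [kapC, sub_nonneg, div_le_iff₀ (by positivity)]; linarith
      have : (0 : ℝ) ≤ kapC p / (p : ℝ) ^ 2 := by positivity
      linarith

end Vale.Agent.P237.All.Transport.High
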