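import Vale.Agent.P237.All.High.Boxes

/-!
P237, every dimension, high regime: boxes combined along `x`, and the analytic tail `x ≥ 11`.
-/

noncomputable section

namespace Vale.Agent.P237.All.Transport.High

open Upper (mills)

/-- The bound on the inner function beyond a point. -/
def Beyond (θ t0 t1 lo : ℝ) : Prop := ∀ hi, Good θ t0 t1 lo hi

theorem Good.cons {θ t0 t1 lo mi : ℝ} (h : Good θ t0 t1 lo mi) (h' : Beyond θ t0 t1 mi) :
    Beyond θ t0 t1 lo := fun hi => h.append (h' hi)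

theorem Beyond.empty {θ t0 t1 lo : ℝ} (hlo : 0 ≤ lo) (ht : 0 ≤ t0) (h : 9 / 20 < lo ^ 2 * t0) :
    Beyond θ t0 t1 lo := by
  intro hi p y r ϑ hp hy hr hr1 h0 h1 hu h2 h3 hw
  have h4 := mul_le_mul (pow_le_pow_left₀ hlo h0 2) h2 ht (sq_nonneg _)
  rw [mul_pow, Real.sq_sqrt (by positivity), show ((p : ℝ) + 2) * y ^ 2 * (1 / ((p : ℝ) + 2)) = y ^ 2 by
    field_simp] at h4
  linarith

theorem wide_le_tail {x : ℝ} (hx : 11 ≤ x) : wide (124 / 125) x ≤ 772 / 1000 * x + 1 / 8 := by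
  have h1 : mills x ≤ x + 137 / 1000 := by
    rw [mills, add_le_add_iff_left, div_le_iff₀ (by linarith)]; linarith
  have h2 : 268 / 100 ≤ lift (124 / 125) x := by
    refine le_trans ?_ (lift_mono (by norm_num) (by norm_num : (0 : ℝ) ≤ 11) hx)
    norm_num [lift, Upper.core, mills]
  rw [wide, div_le_iff₀ (lift_pos (by norm_num) (by linarith))]
  nlinarith

theorem beyond_eleven : Beyond (124 / 125) 0 (1 / 132) 11 := by
  intro hi p y r ϑ hp hy hr hr1 hx0 _ hu _ ht1 hw
  have hp2 : (2 : ℝ) ≤ p := by exact_mod_cast hp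
  obtain ⟨htpos, -⟩ := t_mem hp
  obtain ⟨ec, ea, ee, ep, -, eb, ei⟩ := coeff_t hp
  set t := 1 / ((p : ℝ) + 2) with ht
  set x := √((p : ℝ) + 2) * y with hx
  have hy0 := hy.1
  have hxpos : 0 < x := by linarith only [hx0]
  have huX : y ^ 2 = x ^ 2 * t := by
    rw [hx, mul_pow, Real.sq_sqrt (by positivity), ht]; field_simp
  have hS : 0 < 1 - y ^ 2 := by linarith only [hu]
  have hL0 := hw (by norm_num) (Or.inr (by norm_num))
  have hwide := hL0.trans (wide_le_tail hx0)
  set w := (r ^ p)⁻¹ with hwdef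
  set L := 772 / 1000 * x + 1 / 8 with hL
  have hw1 : 1 ≤ w := (one_le_inv₀ (pow_pos hr p)).2 (pow_le_one₀ hr.le hr1)
  have hs := semi_pos (t := y) ⟨by linarith only [hy0], hy.2⟩
  have hsq := semi_sq (t := y) ⟨by linarith only [hy0], hy.2.le⟩
  have hs1 : semi y ≤ 1 := Real.sqrt_le_one.2 (by linarith only [sq_nonneg y])
  have hSw : (1 - y ^ 2) * w ≤ L := by
    rw [← hsq, show semi y ^ 2 * w = w * semi y * semi y by ring]
    exact le_trans (mul_le_of_le_one_right (mul_nonneg (by linarith only [hw1]) hs.le) hs1) hwide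
  have hwL : w ≤ 27 / 20 * L := by
    have h : 1 ≤ semi y * (27 / 20) := by
      refine (pow_le_pow_iff_left₀ zero_le_one (by positivity) two_ne_zero).1 ?_
      rw [one_pow, mul_pow, hsq]; linarith only [hu]
    calc w ≤ w * (semi y * (27 / 20)) := le_mul_of_one_le_right (by linarith only [hw1]) h
      _ = 27 / 20 * (w * semi y) := by ring
      _ ≤ _ := mul_le_mul_of_nonneg_left hwide (by norm_num)
  obtain ⟨hc0, hc1⟩ := cC_mem hp2
  set T := cC p * (1 - y ^ 2) + bC p * y ^ 2 with hT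
  have hbeta : (113 / 1000 : ℝ) ≤ betaT t :=
    le_trans (by norm_num [betaT, cT]) (betaT_anti htpos.le ht1 (by norm_num))
  have hTlo : 136 / 100 + 113 / 1000 * x ^ 2 ≤ T := by
    have e : T = cC p + x ^ 2 * betaT t := by rw [hT, ← eb, huX]; ring
    have h : (136 / 100 : ℝ) ≤ cC p := by
      rw [ec]; exact le_trans (by norm_num [cT]) (cT_anti htpos.le ht1)
    linarith only [e, h, mul_le_mul_of_nonneg_left hbeta (sq_nonneg x)]
  have hT0 : 0 < T := lt_of_lt_of_le (by positivity) hTlo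
  have hxx : 121 ≤ x ^ 2 := by nlinarith only [hx0]
  have he : eC p * y ^ 2 ≤ 3 / 4 * x ^ 2 := by
    rw [show eC p * y ^ 2 = eC p * t * x ^ 2 by rw [huX]; ring, ee]
    exact mul_le_mul_of_nonneg_right (by rw [eT]; linarith only [htpos]) (sq_nonneg x)
  have he0 : 0 ≤ eC p * y ^ 2 := by
    have : 0 ≤ eC p := by unfold eC; positivity
    positivity
  have hd : 1 - r ≤ (27 / 40 * L + 1 / 2) * (102 / 100 * t) := by
    have h : (p : ℝ) * (1 - r) ≤ 27 / 40 * L + 1 / 2 := by
      have h1 : (p : ℝ) * (1 - r) ≤ (w - 1) / √w := by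
        rw [le_div_iff₀ (Real.sqrt_pos.2 (by linarith only [hw1]))]
        exact Upper.drop_le p hr hr1
      refine h1.trans ?_
      rw [div_le_iff₀ (Real.sqrt_pos.2 (by linarith only [hw1]))]
      have h2 := Real.sq_sqrt (show (0 : ℝ) ≤ w by linarith only [hw1])
      have h3 : √w ≤ 27 / 40 * L + 1 / 2 := by nlinarith only [h2, hwL, sq_nonneg (√w - 1)]
      have := mul_le_mul_of_nonneg_right h3 (Real.sqrt_nonneg w)
      nlinarith only [this, h2]
    calc 1 - r = (p : ℝ) * (1 - r) * (1 / (p : ℝ)) := by field_simp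
      _ ≤ (27 / 40 * L + 1 / 2) * (102 / 100 * t) := by
          refine mul_le_mul h ?_ (by positivity) (by rw [hL]; positivity)
          rw [ei, ipT, div_le_iff₀ (by linarith only [ht1])]
          linear_combination mul_le_mul_of_nonneg_left
            (show (1 : ℝ) ≤ 102 / 100 * (1 - 2 * t) by linarith only [ht1]) htpos.le
  have hN : 3 / 2 - pC p * y ^ 2 + (2 * cC p * (1 - y ^ 2) * (w - 1) * eC p * y ^ 2 +
      eC p ^ 2 * (y ^ 2) ^ 2 * (1 - r)) / T ≤ 0 := by
    have hp3 : 37 / 10 * x ^ 2 ≤ pC p * y ^ 2 := by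
      rw [show pC p * y ^ 2 = pC p * t * x ^ 2 by rw [huX]; ring, ep]
      exact mul_le_mul_of_nonneg_right
        (le_trans (by norm_num [pT, aT]) (pT_anti htpos.le ht1)) (sq_nonneg x)
    have h1 : 2 * cC p * (1 - y ^ 2) * (w - 1) * eC p * y ^ 2 ≤ 33 / 16 * L * x ^ 2 := by
      calc 2 * cC p * (1 - y ^ 2) * (w - 1) * eC p * y ^ 2
          = 2 * cC p * ((1 - y ^ 2) * (w - 1)) * (eC p * y ^ 2) := by ring
        _ ≤ 11 / 4 * L * (3 / 4 * x ^ 2) := by
            refine mul_le_mul (mul_le_mul (by linarith only [hc1]) ?_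
              (mul_nonneg hS.le (by linarith only [hw1])) (by norm_num)) he he0 (by rw [hL]; positivity)
            linarith only [hSw, hS]
        _ = _ := by ring
    have h2 : eC p ^ 2 * (y ^ 2) ^ 2 * (1 - r) ≤ 26 / 100 * (27 / 40 * L + 1 / 2) * x ^ 2 := by
      calc eC p ^ 2 * (y ^ 2) ^ 2 * (1 - r) = (eC p * y ^ 2) ^ 2 * (1 - r) := by ring
        _ ≤ (3 / 4 * x ^ 2) ^ 2 * ((27 / 40 * L + 1 / 2) * (102 / 100 * t)) :=
            mul_le_mul (pow_le_pow_left₀ he0 he 2) hd (by linarith only [hr1]) (sq_nonneg _)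
        _ = 9 / 16 * (102 / 100) * (27 / 40 * L + 1 / 2) * x ^ 2 * (x ^ 2 * t) := by ring
        _ ≤ 9 / 16 * (102 / 100) * (27 / 40 * L + 1 / 2) * x ^ 2 * (9 / 20) :=
            mul_le_mul_of_nonneg_left (by linarith only [huX, hu]) (by rw [hL]; positivity)
        _ ≤ _ := by
            have : 0 ≤ (27 / 40 * L + 1 / 2) * x ^ 2 := by rw [hL]; positivity
            linarith only [this]
    have h3 : (2 * cC p * (1 - y ^ 2) * (w - 1) * eC p * y ^ 2 +
        eC p ^ 2 * (y ^ 2) ^ 2 * (1 - r)) / T ≤ 37 / 10 * x ^ 2 - 3 / 2 := by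
      rw [div_le_iff₀ hT0]
      refine (add_le_add h1 h2).trans (le_trans ?_ (mul_le_mul_of_nonneg_left hTlo (by linarith only [hxx])))
      have h4 : 0 ≤ x ^ 2 * (x * (x - 11)) := by
        have : 0 ≤ x - 11 := by linarith only [hx0]
        positivity
      nlinarith only [h4, hxx, hx0, hL, sq_nonneg x]
    linarith only [hp3, h3]
  have hf : (0 : ℝ) ≤ (aC p * w + 4) / (1 + w) + aC p / (p * w) -
      cC p ^ 2 * ((1 - y ^ 2) * w) / T := by
    have ha : (148 / 100 : ℝ) ≤ aC p := by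
      rw [ea]; exact le_trans (by norm_num [aT]) (aT_anti htpos.le ht1)
    have ha4 := (aC_mem (show (0 : ℝ) ≤ p by linarith only [hp2])).2
    have hK : 148 / 100 ≤ (aC p * w + 4) / (1 + w) + aC p / (p * w) := by
      have h1 : aC p ≤ (aC p * w + 4) / (1 + w) := by
        rw [le_div_iff₀ (by linarith only [hw1])]; linarith only [ha4]
      have h2 : 0 ≤ aC p / (p * w) := by
        have : 0 ≤ aC p := by linarith only [ha]
        positivity
      linarith only [ha, h1, h2]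
    rw [sub_nonneg, div_le_iff₀ hT0]
    refine le_trans ?_ (mul_le_mul hK hTlo (by positivity) (by linarith only [hK]))
    refine (mul_le_mul (pow_le_pow_left₀ (by linarith only [hc0]) hc1 2) hSw
      (mul_nonneg hS.le (by linarith only [hw1])) (by norm_num)).trans ?_
    rw [hL]; nlinarith only [hx0]
  refine (inner_le_lin p (by omega) hy hr hr1 hT0 hT le_rfl hN hf).trans ?_
  simp only [zero_mul, mul_zero, sub_zero]
  exact div_nonneg (errNum_nonneg hp _) hS.le

/-- A group of dimensions. -/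
theorem group_le {θ t0 t1 : ℝ} (h : Beyond θ t0 t1 0) {p : ℕ} (hp : 2 ≤ p) {y r ϑ : ℝ}
    (hy : y ∈ Set.Ioo (0 : ℝ) 1) (hr : 0 < r) (hr1 : r ≤ 1) (hϑ : ϑ ≤ 1 - y)
    (h3 : t0 ≤ 1 / ((p : ℝ) + 2)) (h4 : 1 / ((p : ℝ) + 2) ≤ t1) (h5 : t1 ≤ 1 / 4)
    (hreach : Reach p y r) :
    inner p y r ϑ ≤ errNum p (y ^ 2) / (1 - y ^ 2) := by
  have hy0 := hy.1
  rcases le_total (y ^ 2) (9 / 20) with hu | hu
  · exact h (√((p : ℝ) + 2) * y) p y r ϑ hp hy hr hr1 (by positivity) le_rfl hu h3 h4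
      fun hθ0 hθ => reach_wide hp hy hr hreach hθ0 (thetaOK_anti hθ h4 h5)
  · exact (inner_le_edge p hp hy hr hr1 hu hϑ).trans
      (div_nonneg (errNum_nonneg hp _) (by nlinarith [hy.2]))

end Vale.Agent.P237.All.Transport.High
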