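import Vale.Agent.P237.All.Upper.Core

/-!
P237, every dimension, high regime: the inner function at the weights `(0, 1/4, 1)`, the test
`2 y - t` and the potential `(potA, 11/8 - 9 / (4 (p + 2)))`, and its bounds by completing squares.
-/

noncomputable section

namespace Vale.Agent.P237.All.Transport.High

/-- The coefficient of the quadratic part of the potential. -/
def cC (p : ℝ) : ℝ := 11 / 8 - 1 / (p + 2) - 5 / (p + 2) ^ 2

/-- The cross coefficient. -/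
def eC (p : ℝ) : ℝ := 3 / 4 * p + 1

/-- The weight of the deficit `w - 1 + p δ`. -/
def aC (p : ℝ) : ℝ := 2 * eC p / (p + 3)

/-- The slope of the residual in `y ^ 2`. -/
def pC (p : ℝ) : ℝ := 21 / 4 * p + 5 - p * aC p

/-- The slope of the coefficient of `θ ^ 2` beyond `r = 1`. -/
def sC (p : ℝ) : ℝ := 11 / 4 * p - 1

/-- The coefficient of `θ ^ 2`, away from its singular part, for `r ≤ 1`. -/
def bC (p : ℝ) : ℝ :=
  cC p * (p + 3) - 5 / 4 * (p + 4) * (p - 1 + 5 / 4 * (p + 4) / (4 * (p + 1))) / (p + 1)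

/-- The slack of the bound at `r ≤ 1`. -/
def kapC (p : ℝ) : ℝ := 31 / 20 - 24 / 5 / (p + 2)

/-- The quadratic form of the residual at `r ≥ 1`. -/
def lamC (p : ℝ) : ℝ := 2 * p * (p + 1) - (cC p - aC p / 2) * p ^ 2

/-- The inner function. -/
def inner (p : ℕ) (y r θ : ℝ) : ℝ :=
  (pC p * y ^ 2 - 3 / 2) * (r - 1) -
    (1 - y ^ 2) * (4 * (r ^ (p + 1) - 1 - ((p : ℝ) + 1) * (r - 1)) +
      aC p * ((r ^ p)⁻¹ - 1 + p * (r - 1))) +
    (-2 * eC p * y * (r - 1) + 2 * cC p * (1 - y ^ 2) * ((r ^ p)⁻¹ - 1) / y) * θ +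
    (5 / 4 * ((p : ℝ) + 4) * r - 4 * r ^ (p + 1) - cC p * ((p : ℝ) + 3) -
      cC p * (1 - y ^ 2) / y ^ 2) * θ ^ 2

theorem potA_eq (p : ℕ) : potA p (1 / 4) = -aC p := by
  simp only [potA, aC, eC]; field_simp; ring

/-- The density of the certificate through the inner function. -/
theorem density_inner (p : ℕ) (c2 lam : ℝ) {y t r : ℝ} (hy : y ∈ Set.Ioo (0 : ℝ) 1) (hr : 0 < r) :
    density p 0 (1 / 4) 1 1 (ellOf p (1 / 4) (3 / 2) c2) lam c2 y t r +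
        potY p (potA p (1 / 4)) (cC p) y t + potT p (potA p (1 / 4)) (cC p) y t / r ^ p =
      semi y ^ (p + 1) * (zeroOrder p (1 / 4) y - 1 / 4 * (c2 - 1) + inner p y r (t - y)) := by
  rw [density_pot p (1 / 4) (cC p) (3 / 2) c2 lam hy hr, potA_eq]
  simp only [inner, resid, potA_eq, eC, pC]
  ring

theorem cC_mem {p : ℝ} (hp : 2 ≤ p) : 13 / 16 ≤ cC p ∧ cC p ≤ 11 / 8 := by
  have h : 0 < p + 2 := by linarith
  have h1 : 1 / (p + 2) ≤ 1 / 4 := one_div_le_one_div_of_le (by norm_num) (by linarith)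
  have h2 : 5 / (p + 2) ^ 2 ≤ 5 / 16 :=
    div_le_div_of_nonneg_left (by norm_num) (by norm_num) (by nlinarith)
  have h3 : 0 ≤ 1 / (p + 2) := by positivity
  have h4 : 0 ≤ 5 / (p + 2) ^ 2 := by positivity
  unfold cC
  constructor <;> linarith

theorem aC_mem {p : ℝ} (hp : 0 ≤ p) : 0 ≤ aC p ∧ aC p ≤ 3 / 2 := by
  have h : 0 < p + 3 := by linarith
  refine ⟨by unfold aC eC; positivity, ?_⟩
  rw [aC, eC, div_le_iff₀ h]; linarith

theorem bC_nonneg {p : ℝ} (hp : 2 ≤ p) : 0 ≤ bC p := by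
  obtain ⟨q, hq, rfl⟩ : ∃ q, 0 ≤ q ∧ p = q + 2 := ⟨p - 2, by linarith, by ring⟩
  rw [bC, cC, sub_nonneg]
  field_simp
  nlinarith [pow_nonneg hq 2, pow_nonneg hq 3, pow_nonneg hq 4]

theorem lamC_pos {p : ℝ} (hp : 2 ≤ p) : 0 < lamC p := by
  have := cC_mem hp
  have := aC_mem (p := p) (by linarith)
  rw [lamC]
  nlinarith [mul_le_mul_of_nonneg_right (show cC p - aC p / 2 ≤ 2 by linarith) (sq_nonneg p)]

/-- Case `r ≥ 1`. -/
theorem inner_le_pos (p : ℕ) (hp : 2 ≤ p) {y r θ : ℝ} (hy : y ∈ Set.Ioo (0 : ℝ) 1) (hr : 1 ≤ r) :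
    inner p y r θ ≤ ((pC p + eC p ^ 2 / sC p) * y ^ 2 - 3 / 2) ^ 2 /
      (4 * lamC p * (1 - y ^ 2)) := by
  have hp2 : (2 : ℝ) ≤ p := by exact_mod_cast hp
  obtain ⟨ha0, ha1⟩ := aC_mem (show (0 : ℝ) ≤ p by linarith)
  obtain ⟨hc0, hc1⟩ := cC_mem hp2
  set c := cC (p : ℝ) with hc
  have hy0 := hy.1
  have hu : 0 < y ^ 2 := by positivity
  have hS : 0 < 1 - y ^ 2 := by nlinarith [hy.2]
  have hσ : 0 < sC p := by unfold sC; linarith
  have hM : 5 / 4 * ((p : ℝ) + 4) ≤ 4 + c * ((p : ℝ) + 3) := by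
    have e : c * ((p : ℝ) + 2) = 11 / 8 * ((p : ℝ) + 2) - 1 - 5 * (1 / ((p : ℝ) + 2)) := by
      rw [hc, cC]; field_simp
    have h4 : 1 / ((p : ℝ) + 2) ≤ 1 / 4 := one_div_le_one_div_of_le (by norm_num) (by linarith)
    linarith only [e, h4, hp2, hc0]
  set δ := r - 1 with hδ
  have hδ0 : 0 ≤ δ := by linarith
  have hr' : r = 1 + δ := by linarith
  have hv : 1 ≤ r ^ p := one_le_pow₀ hr
  have hv0 : 0 < r ^ p := by linarith
  set s := 1 - (r ^ p)⁻¹ with hs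
  have hs0 : 0 ≤ s := by
    rw [hs, sub_nonneg]; exact inv_le_one_of_one_le₀ hv
  have hs1 : s ≤ p * δ := one_sub_inv_pow_le p (by linarith)
  have hW : s ^ 2 / 2 ≤ (r ^ p)⁻¹ - 1 + p * δ := by
    have h := Upper.trap_le p hr
    rw [← hδ] at h
    have e : r ^ p * s = r ^ p - 1 := by rw [hs, mul_sub, mul_inv_cancel₀ hv0.ne']; ring
    have hs2 : s < 1 := by rw [hs]; linarith [inv_pos.2 hv0]
    have h2 : 2 * s ≤ p * δ * (2 - s) := by
      refine le_of_mul_le_mul_left ?_ hv0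
      calc r ^ p * (2 * s) = 2 * (r ^ p * s) := by ring
        _ ≤ p * δ * (r ^ p + 1) := by rw [e]; exact h
        _ = r ^ p * (p * δ * (2 - s)) := by linear_combination ((p : ℝ) * δ) * e
    rw [show (r ^ p)⁻¹ - 1 = -s by rw [hs]; ring]
    refine le_of_mul_le_mul_left ?_ (show (0 : ℝ) < 2 - s by linarith)
    nlinarith only [h2, mul_nonneg (mul_nonneg hs0 hs0) hs0]
  have hP : ((p : ℝ) + 1) * p / 2 * δ ^ 2 ≤ r ^ (p + 1) - 1 - ((p : ℝ) + 1) * δ := by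
    have h := pow_ge_quadratic (p + 1) hδ0
    push_cast at h
    rw [hr']; linarith only [h]
  have hB : 1 + ((p : ℝ) + 1) * δ ≤ r ^ (p + 1) := by
    linarith only [hP, mul_nonneg (show (0 : ℝ) ≤ ((p : ℝ) + 1) * p / 2 by positivity) (sq_nonneg δ)]
  have hC : 5 / 4 * ((p : ℝ) + 4) * r - 4 * r ^ (p + 1) - c * ((p : ℝ) + 3) ≤ -(sC p * δ) := by
    rw [sC]; rw [hr'] at hB ⊢; linarith only [hB, hM]
  have h1 : -2 * eC p * y * δ * θ - sC p * δ * θ ^ 2 ≤ eC p ^ 2 / sC p * y ^ 2 * δ := by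
    rw [div_mul_eq_mul_div, div_mul_eq_mul_div, le_div_iff₀ hσ]
    linear_combination mul_nonneg hδ0 (sq_nonneg (sC p * θ + eC p * y))
  have h2 : 2 * c * (1 - y ^ 2) * ((r ^ p)⁻¹ - 1) / y * θ -
      c * (1 - y ^ 2) / y ^ 2 * θ ^ 2 ≤ c * (1 - y ^ 2) * s ^ 2 := by
    have e : c * (1 - y ^ 2) * (s + θ / y) ^ 2 = c * (1 - y ^ 2) * s ^ 2 -
        (2 * c * (1 - y ^ 2) * ((r ^ p)⁻¹ - 1) / y * θ - c * (1 - y ^ 2) / y ^ 2 * θ ^ 2) := by
      rw [hs]; field_simp; ring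
    linarith only [e, mul_nonneg (mul_nonneg (show 0 ≤ c by linarith) hS.le) (sq_nonneg (s + θ / y))]
  have hl := lamC_pos hp2
  set lam := lamC (p : ℝ) with hlam
  set R := (pC p + eC p ^ 2 / sC p) * y ^ 2 - 3 / 2 with hR
  have h3 : inner p y r θ ≤ R * δ - (1 - y ^ 2) * (lam * δ ^ 2) := by
    have hq : s ^ 2 ≤ (p : ℝ) ^ 2 * δ ^ 2 := by rw [← mul_pow]; exact pow_le_pow_left₀ hs0 hs1 2
    have hlo : (c - aC p / 2) * s ^ 2 ≤ (c - aC p / 2) * ((p : ℝ) ^ 2 * δ ^ 2) :=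
      mul_le_mul_of_nonneg_left hq (by linarith)
    have hdef : lam * δ ^ 2 + c * s ^ 2 ≤ 4 * (r ^ (p + 1) - 1 - ((p : ℝ) + 1) * δ) +
        aC p * ((r ^ p)⁻¹ - 1 + p * δ) := by
      rw [hlam, lamC]; linarith only [hlo, hP, mul_le_mul_of_nonneg_left hW ha0]
    have hCθ := mul_le_mul_of_nonneg_right hC (sq_nonneg θ)
    have hD := mul_le_mul_of_nonneg_left hdef hS.le
    rw [inner, ← hδ, ← hc, hR]
    linarith only [h1, h2, hCθ, hD]
  refine h3.trans ?_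
  rw [le_div_iff₀ (by positivity)]
  linear_combination sq_nonneg (R - 2 * lam * (1 - y ^ 2) * δ)

/-- The coefficient of `θ ^ 2` for `r ≤ 1`. -/
theorem coef_le (p : ℕ) (hp : 1 ≤ p) {r : ℝ} (hr : 0 ≤ r) :
    5 / 4 * ((p : ℝ) + 4) * r - 4 * r ^ (p + 1) ≤ cC p * ((p : ℝ) + 3) - bC p := by
  have hp1 : (1 : ℝ) ≤ p := by exact_mod_cast hp
  set M := 5 / 4 * ((p : ℝ) + 4) with hM
  set z := M / (4 * ((p : ℝ) + 1)) with hz
  have hz0 : 0 < z := by positivity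
  set ρ := z ^ ((p : ℝ)⁻¹) with hρ
  have hρ0 : 0 < ρ := Real.rpow_pos_of_pos hz0 _
  have hρp : ρ ^ p = z := Real.rpow_inv_natCast_pow hz0.le (by omega)
  have hρle : ρ ≤ (p - 1 + z) / p := by
    have h := one_add_mul_le_pow (a := ρ - 1) (by linarith) p
    rw [add_sub_cancel, hρp] at h
    rw [le_div_iff₀ (by linarith)]
    linarith
  have htan : ρ ^ (p + 1) + ((p : ℝ) + 1) * ρ ^ p * (r - ρ) ≤ r ^ (p + 1) := by
    have h := one_add_mul_le_pow (a := r / ρ - 1) (by linarith [div_nonneg hr hρ0.le]) (p + 1)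
    rw [add_sub_cancel, div_pow, le_div_iff₀ (by positivity)] at h
    refine le_trans (le_of_eq ?_) h
    push_cast
    rw [pow_succ]
    field_simp
  have hb : cC p * ((p : ℝ) + 3) - bC p = M * ((p - 1 + z) / (p + 1)) := by
    simp only [bC, hz, hM]; ring
  rw [pow_succ, hρp] at htan
  have hMz : 4 * ((p : ℝ) + 1) * z = M := by rw [hz]; field_simp
  have h5 : 4 * (p : ℝ) * (z * ρ) ≤ 4 * z * (p - 1 + z) := by
    rw [le_div_iff₀ (by linarith)] at hρle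
    nlinarith
  rw [hb, show M * ((p - 1 + z) / (p + 1)) = 4 * z * (p - 1 + z) by rw [← hMz]; field_simp]
  nlinarith [show M * r = 4 * ((p : ℝ) + 1) * z * r by rw [hMz]]

/-- What the deficit gives at `w = r⁻ᵖ`, `s = w - 1`. -/
theorem deficit_ge (p : ℕ) (hp : 1 ≤ p) {r : ℝ} (hr : 0 < r) (hr1 : r ≤ 1) :
    ((r ^ p)⁻¹ - 1) ^ 2 / (r ^ p)⁻¹ *
        ((aC p * (r ^ p)⁻¹ + 4) / (1 + (r ^ p)⁻¹) + aC p / (p * (r ^ p)⁻¹)) ≤
      4 * (r ^ (p + 1) - 1 - ((p : ℝ) + 1) * (r - 1)) +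
        aC p * ((r ^ p)⁻¹ - 1 + p * (r - 1)) := by
  have hp1 : (1 : ℝ) ≤ p := by exact_mod_cast hp
  obtain ⟨ha0, ha1⟩ := aC_mem (show (0 : ℝ) ≤ p by linarith)
  have hid := pow_mul_id p hr
  have hex := pow_excess_ge p hp hr.le hr1
  have hb : 1 - r ^ p ≤ p * (1 - r) := by
    have h := one_add_mul_le_pow (a := r - 1) (by linarith) p
    rw [add_sub_cancel] at h
    linarith
  set v := r ^ p with hv
  have hv0 : 0 < v := pow_pos hr p
  have hv1 : v ≤ 1 := pow_le_one₀ hr.le hr1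
  have hd : (1 - v) ^ 2 / p ≤ (r - 1) * (v - 1) := by
    rw [div_le_iff₀ (by linarith)]
    nlinarith [mul_le_mul_of_nonneg_right hb (sub_nonneg.2 hv1)]
  have e : (v⁻¹ - 1) ^ 2 / v⁻¹ * ((aC p * v⁻¹ + 4) / (1 + v⁻¹) + aC p / (p * v⁻¹)) =
      (4 - aC p) * ((1 - v) ^ 2 / (1 + v)) +
        aC p * ((v⁻¹ - 1) ^ 2 / v⁻¹ + (1 - v) ^ 2 / p) := by
    have : (p : ℝ) ≠ 0 := by linarith
    have : 1 + v⁻¹ ≠ 0 := by positivity
    have : v + 1 ≠ 0 := by positivity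
    field_simp
    ring
  rw [e]
  have := mul_le_mul_of_nonneg_left hex (show 0 ≤ 4 - aC p by linarith)
  have := mul_le_mul_of_nonneg_left hd ha0
  nlinarith

/-- Case `r ≤ 1`: the square in `θ`, linear in `1 - r` and quadratic in `q = (w - 1) / √w`. -/
theorem inner_le_lin (p : ℕ) (hp : 1 ≤ p) {y r θ T N f : ℝ} (hy : y ∈ Set.Ioo (0 : ℝ) 1)
    (hr : 0 < r) (hr1 : r ≤ 1) (hT0 : 0 < T) (hT : T = cC p * (1 - y ^ 2) + bC p * y ^ 2)
    (hN0 : 0 ≤ N)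
    (hN : 3 / 2 - pC p * y ^ 2 + (2 * cC p * (1 - y ^ 2) * ((r ^ p)⁻¹ - 1) * eC p * y ^ 2 +
      eC p ^ 2 * (y ^ 2) ^ 2 * (1 - r)) / T ≤ N)
    (hf : f ≤ (aC p * (r ^ p)⁻¹ + 4) / (1 + (r ^ p)⁻¹) + aC p / (p * (r ^ p)⁻¹) -
      cC p ^ 2 * ((1 - y ^ 2) * (r ^ p)⁻¹) / T) :
    inner p y r θ ≤ N * (((r ^ p)⁻¹ - 1) / √((r ^ p)⁻¹) / p) -
      (1 - y ^ 2) * (f * (((r ^ p)⁻¹ - 1) / √((r ^ p)⁻¹)) ^ 2) := by
  have hy0 := hy.1
  have hp1 : (1 : ℝ) ≤ p := by exact_mod_cast hp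
  have hS : 0 < 1 - y ^ 2 := by nlinarith [hy.2]
  have he0 : 0 ≤ eC p := by unfold eC; positivity
  have hv0 := pow_pos hr p
  have hdef := mul_le_mul_of_nonneg_left (deficit_ge p hp hr hr1) hS.le
  have hco := coef_le p hp hr.le
  have hdr := Upper.drop_le p hr hr1
  set w := (r ^ p)⁻¹ with hw
  set K := (aC p * w + 4) / (1 + w) + aC p / (p * w) with hK
  have hw1 : 1 ≤ w := (one_le_inv₀ hv0).2 (pow_le_one₀ hr.le hr1)
  set z := √w with hz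
  have hz0 : 0 < z := Real.sqrt_pos.2 (by linarith)
  have hzz : z ^ 2 = w := Real.sq_sqrt (by linarith)
  set d := 1 - r with hd
  have hd0 : 0 ≤ d := by linarith
  set q := (w - 1) / z with hq
  have hdq : d ≤ q / p := by
    rw [hq, le_div_iff₀ (by linarith), le_div_iff₀ hz0]; linarith
  set c := cC (p : ℝ) with hc'
  set T' := c * (1 - y ^ 2) + bC p * y ^ 2 with hT'
  set b := c * (1 - y ^ 2) * (w - 1) + eC p * y ^ 2 * d with hb'
  have hquad : (-2 * eC p * y * (r - 1) + 2 * c * (1 - y ^ 2) * (w - 1) / y) * θ -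
      (bC p + c * (1 - y ^ 2) / y ^ 2) * θ ^ 2 ≤ b ^ 2 / T := by
    rw [show T = T' from hT, le_div_iff₀ (hT ▸ hT0)]
    have e : b ^ 2 - ((-2 * eC p * y * (r - 1) + 2 * c * (1 - y ^ 2) * (w - 1) / y) * θ -
        (bC p + c * (1 - y ^ 2) / y ^ 2) * θ ^ 2) * T' = (b - T' * θ / y) ^ 2 := by
      rw [hb', hT', hd]; field_simp; ring
    linarith only [e, sq_nonneg (b - T' * θ / y)]
  have hb2 : b ^ 2 / T = (1 - y ^ 2) * q ^ 2 * (c ^ 2 * ((1 - y ^ 2) * w) / T) +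
      d * ((2 * c * (1 - y ^ 2) * (w - 1) * eC p * y ^ 2 + eC p ^ 2 * (y ^ 2) ^ 2 * d) / T) := by
    rw [hb', hq, div_pow, hzz]
    field_simp
    ring
  have hCθ : (5 / 4 * ((p : ℝ) + 4) * r - 4 * r ^ (p + 1) - c * ((p : ℝ) + 3) -
      c * (1 - y ^ 2) / y ^ 2) * θ ^ 2 ≤ -((bC p + c * (1 - y ^ 2) / y ^ 2) * θ ^ 2) := by
    rw [← neg_mul]; exact mul_le_mul_of_nonneg_right (by linarith) (sq_nonneg θ)
  have hsK : (w - 1) ^ 2 / w * K = q ^ 2 * K := by rw [hq, div_pow, hzz]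
  have hlin : (3 / 2 - pC p * y ^ 2 + (2 * c * (1 - y ^ 2) * (w - 1) * eC p * y ^ 2 +
      eC p ^ 2 * (y ^ 2) ^ 2 * d) / T) * d ≤ N * (q / p) :=
    (mul_le_mul_of_nonneg_right hN hd0).trans (mul_le_mul_of_nonneg_left hdq hN0)
  have hfq := mul_le_mul_of_nonneg_left hf (mul_nonneg hS.le (sq_nonneg q))
  rw [hsK] at hdef
  rw [inner, ← hw, ← hc', show r - 1 = -d by rw [hd]; ring]
  rw [show r - 1 = -d by rw [hd]; ring] at hdef hquad
  linarith only [hdef, hCθ, hquad, hb2, hlin, hfq]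

/-- The three ways a quadratic `N z - f z ^ 2` stays below `E` on `[z0, z1]`. -/
theorem quad_le {z z0 z1 N f E : ℝ} (hz : 0 ≤ z) (hN : 0 ≤ N) (hE : 0 ≤ E)
    (h : (0 ≤ f ∧ N ^ 2 ≤ 4 * f * E) ∨ (0 ≤ f ∧ N ≤ 2 * f * z0 ∧ z0 * (N - f * z0) ≤ E ∧ z0 ≤ z) ∨
      (z ≤ z1 ∧ 2 * f * z1 ≤ N ∧ z1 * (N - f * z1) ≤ E)) :
    N * z - f * z ^ 2 ≤ E := by
  rcases h with ⟨hf, h⟩ | ⟨hf, h, h4, h0⟩ | ⟨h1, h2, h3⟩
  · rcases eq_or_lt_of_le hf with e | e
    · subst e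
      have : N = 0 := (pow_eq_zero_iff two_ne_zero).1 (le_antisymm (by linarith) (sq_nonneg N))
      subst this
      linarith
    · refine le_of_mul_le_mul_left ?_ e
      nlinarith [sq_nonneg (2 * f * z - N)]
  · nlinarith [mul_nonneg (sub_nonneg.2 h0)
      (show 0 ≤ f * (z + z0) - N by nlinarith [mul_le_mul_of_nonneg_left h0 hf])]
  · rcases le_total 0 f with hf | hf
    · nlinarith [mul_nonneg (sub_nonneg.2 h1)
        (show 0 ≤ N - f * (z + z1) by nlinarith [mul_le_mul_of_nonneg_left h1 hf])]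
    · nlinarith [mul_nonneg (sub_nonneg.2 h1)
        (show 0 ≤ N - f * (z + z1) by nlinarith [mul_nonpos_of_nonpos_of_nonneg hf (add_nonneg hz (hz.trans h1))])]

/-- Case `r ≤ 1` near the edge: only `θ ≤ 1 - y` is used. -/
theorem inner_le_edge (p : ℕ) (hp : 2 ≤ p) {y r θ : ℝ} (hy : y ∈ Set.Ioo (0 : ℝ) 1) (hr : 0 < r)
    (hr1 : r ≤ 1) (hu : 9 / 20 ≤ y ^ 2) (hθ : θ ≤ 1 - y) : inner p y r θ ≤ 0 := by
  have hy0 := hy.1
  have hp2 : (2 : ℝ) ≤ p := by exact_mod_cast hp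
  have hS : 0 < 1 - y ^ 2 := by nlinarith [hy.2]
  obtain ⟨ha0, ha1⟩ := aC_mem (show (0 : ℝ) ≤ p by linarith)
  obtain ⟨hc0, hc1⟩ := cC_mem hp2
  have he0 : 0 ≤ eC p := by unfold eC; positivity
  have hv0 := pow_pos hr p
  have hex : 0 ≤ r ^ (p + 1) - 1 - ((p : ℝ) + 1) * (r - 1) := by
    have h := one_add_mul_le_pow (a := r - 1) (by linarith) (p + 1)
    rw [add_sub_cancel] at h; push_cast at h; linarith
  have hco := coef_le p (by omega) hr.le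
  have hbc := bC_nonneg hp2
  set d := 1 - r with hd
  have hd0 : 0 ≤ d := by linarith
  set s := (r ^ p)⁻¹ - 1 with hs
  have hs0 : 0 ≤ s := by
    rw [hs, sub_nonneg]; exact (one_le_inv₀ hv0).2 (pow_le_one₀ hr.le hr1)
  have hy2 : 67 / 100 ≤ y := by nlinarith
  have hyy : y * (1 - y) ≤ 2211 / 10000 := by nlinarith
  have hC2 : (5 / 4 * ((p : ℝ) + 4) * r - 4 * r ^ (p + 1) - cC p * ((p : ℝ) + 3) -
      cC p * (1 - y ^ 2) / y ^ 2) * θ ^ 2 ≤ 0 :=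
    mul_nonpos_of_nonpos_of_nonneg (by
      have : 0 ≤ cC p * (1 - y ^ 2) / y ^ 2 := by
        have : (0 : ℝ) ≤ cC p := by linarith
        positivity
      linarith) (sq_nonneg θ)
  have hA : 2 * cC p * (1 - y) / y ≤ aC p := by
    have h := (show 66 / 67 * cC p ≤ aC p by
      obtain ⟨v, hv, hv'⟩ : ∃ v : ℝ, 0 ≤ v ∧ (p : ℝ) = v + 2 := ⟨p - 2, by linarith, by ring⟩
      rw [cC, aC, eC, hv']; field_simp
      nlinarith only [hv, pow_nonneg hv 2, pow_nonneg hv 3, pow_nonneg hv 4])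
    have hy3 : (1 - y) / y ≤ 33 / 67 := by rw [div_le_iff₀ hy0]; linarith
    calc 2 * cC p * (1 - y) / y = 2 * cC p * ((1 - y) / y) := by ring
      _ ≤ 2 * cC p * (33 / 67) := mul_le_mul_of_nonneg_left hy3 (by linarith)
      _ ≤ _ := by linarith
  have hR : 2 * eC p * (y * (1 - y)) + aC p * p * (1 - y ^ 2) ≤ pC p * y ^ 2 - 3 / 2 := by
    have hap : aC p * (p : ℝ) ≤ 3 / 2 * p := mul_le_mul_of_nonneg_right ha1 (by linarith)
    have hkey : 2 * eC p * (2211 / 10000) + aC p * p * (11 / 20) ≤ pC p * (9 / 20) - 3 / 2 := by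
      simp only [pC, eC]; linarith
    have hpc : 0 ≤ pC p := by rw [pC]; nlinarith
    have t1 := mul_le_mul_of_nonneg_left hyy (show 0 ≤ 2 * eC p by linarith)
    have t2 := mul_le_mul_of_nonneg_left (show 1 - y ^ 2 ≤ 11 / 20 by linarith)
      (show 0 ≤ aC p * p by positivity)
    have t3 := mul_le_mul_of_nonneg_left hu hpc
    linarith
  have hcoef : 0 ≤ -2 * eC p * y * (r - 1) + 2 * cC p * (1 - y ^ 2) * s / y := by
    have : (0 : ℝ) ≤ cC p := by linarith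
    have : 0 ≤ 2 * cC p * (1 - y ^ 2) * s / y := by positivity
    rw [hd] at hd0; nlinarith [mul_nonneg (mul_nonneg he0 hy0.le) hd0]
  have hlin := mul_le_mul_of_nonneg_left hθ hcoef
  have e : (-2 * eC p * y * (r - 1) + 2 * cC p * (1 - y ^ 2) * s / y) * (1 - y) =
      2 * eC p * (y * (1 - y)) * d + (1 - y ^ 2) * s * (2 * cC p * (1 - y) / y) := by
    rw [hd]; ring
  have hA' := mul_le_mul_of_nonneg_left hA (mul_nonneg hS.le hs0)
  have hR' := mul_le_mul_of_nonneg_right hR hd0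
  have hex4 : 0 ≤ (1 - y ^ 2) * (4 * (r ^ (p + 1) - 1 - ((p : ℝ) + 1) * (r - 1))) := by
    linarith only [mul_nonneg hS.le hex]
  rw [inner, ← hs]
  rw [show r - 1 = -d by rw [hd]; ring] at hlin hex4 hcoef ⊢
  linarith only [hlin, e, hA', hR', hex4, hC2]

end Vale.Agent.P237.All.Transport.High
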